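import Vale.Agent.P268.T.K372.SheetsV

/-!
# P268, topological half, block SHEETS, final Euclidean form, part 2

Continuity, Lipschitz estimates, existence of `G`, smallness of `θ` for a finite family, and
quantitative separation on every closed cone inside `{max u > d ‖u‖}`.
-/

set_option linter.unusedSectionVars false
set_option linter.unusedVariables false

namespace Vale.Agent.P268.T.K372

open Set Filter Topology
open scoped RealInnerProductSpace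

variable {ι : Type*} [Fintype ι]

/-! ### Continuity -/

theorem continuous_coord (j : ι) : Continuous fun u : EuclideanSpace ℝ ι => u j :=
  (EuclideanSpace.proj (𝕜 := ℝ) j).continuous

theorem continuous_of_coord {X : Type*} [TopologicalSpace X] {f : X → EuclideanSpace ℝ ι}
    (h : ∀ j, Continuous fun x => f x j) : Continuous f :=
  (PiLp.continuous_toLp 2 (fun _ : ι => ℝ)).comp (continuous_pi h)

theorem continuous_ppV (d : ℝ) (j : ι) : Continuous fun u : EuclideanSpace ℝ ι => ppV d u j :=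
  ((continuous_coord j).sub (continuous_const.mul continuous_norm)).max continuous_const

theorem continuous_muV (δ : ℝ) : Continuous (muV δ : EuclideanSpace ℝ ι → EuclideanSpace ℝ ι) := by
  refine continuous_of_coord fun j => ?_
  exact (((continuous_coord j).sub (continuous_const.mul continuous_norm)).max
    continuous_const).sub (((continuous_coord j).neg.sub
      (continuous_const.mul continuous_norm)).max continuous_const)

theorem continuousAt_nuV (δ : ℝ) {u : EuclideanSpace ℝ ι} (hu : u ≠ 0) :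
    ContinuousAt (nuV δ : EuclideanSpace ℝ ι → EuclideanSpace ℝ ι) u :=
  (continuous_norm.continuousAt.inv₀ (norm_ne_zero_iff.mpr hu)).smul (continuous_muV δ).continuousAt

theorem continuousOn_nuV (δ : ℝ) :
    ContinuousOn (nuV δ : EuclideanSpace ℝ ι → EuclideanSpace ℝ ι) {u | u ≠ 0} :=
  fun _ hu => (continuousAt_nuV δ hu).continuousWithinAt

theorem continuous_phiV (K : ι → ℕ) :
    Continuous (phiV K : EuclideanSpace ℝ ι → EuclideanSpace ℝ ι) :=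
  continuous_of_coord fun j => continuous_const.mul ((continuous_coord j).max continuous_const)

/-! ### Lipschitz estimates -/

theorem abs_ppV_sub_le {d : ℝ} (hd : 0 ≤ d) (u v : EuclideanSpace ℝ ι) (j : ι) :
    |ppV d u j - ppV d v j| ≤ (1 + d) * ‖u - v‖ := by
  unfold ppV
  refine (abs_max_sub_max_le_abs _ _ _).trans ?_
  have h1 : |u j - v j| ≤ ‖u - v‖ := abs_apply_le (u - v) j
  have h2 := abs_norm_sub_norm_le u v
  have h3 : u j - d * ‖u‖ - (v j - d * ‖v‖) = (u j - v j) - d * (‖u‖ - ‖v‖) := by ring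
  rw [h3]
  refine (abs_sub _ _).trans ?_
  rw [abs_mul, abs_of_nonneg hd]
  nlinarith

theorem abs_muV_sub_le {δ : ℝ} (hδ : 0 ≤ δ) (u v : EuclideanSpace ℝ ι) (j : ι) :
    |muV δ u j - muV δ v j| ≤ 2 * (1 + δ) * ‖u - v‖ := by
  have e : ∀ w : EuclideanSpace ℝ ι, muV δ w j = ppV δ w j - ppV δ (-w) j := fun w => by
    rw [muV_apply]; unfold ppV; rw [norm_neg]; rfl
  have h1 := abs_ppV_sub_le hδ u v j
  have h2 := abs_ppV_sub_le hδ (-u) (-v) j
  have e1 : ‖-u - -v‖ = ‖u - v‖ := by rw [← norm_neg]; congr 1; abel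
  rw [e1] at h2
  rw [e, e]
  have e3 : ppV δ u j - ppV δ (-u) j - (ppV δ v j - ppV δ (-v) j) =
      (ppV δ u j - ppV δ v j) - (ppV δ (-u) j - ppV δ (-v) j) := by ring
  rw [e3]
  refine (abs_sub _ _).trans ?_
  linarith

theorem norm_muV_sub_le {δ : ℝ} (hδ : 0 ≤ δ) (u v : EuclideanSpace ℝ ι) :
    ‖muV δ u - muV δ v‖ ≤ Fintype.card ι * (2 * (1 + δ)) * ‖u - v‖ := by
  rw [mul_assoc]
  exact norm_le_card_mul (by positivity) fun j => by
    rw [PiLp.sub_apply]; exact abs_muV_sub_le hδ u v j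

theorem norm_phiV_sub_le {P : ℝ} (K : ι → ℕ) (hK : ∀ j, (K j : ℝ) ≤ P) (hP : 0 ≤ P)
    (u v : EuclideanSpace ℝ ι) : ‖phiV K u - phiV K v‖ ≤ P * ‖u - v‖ := by
  have h1 : ‖phiV K u - phiV K v‖ ^ 2 ≤ (P * ‖u - v‖) ^ 2 := by
    rw [mul_pow, norm_sq_eq, norm_sq_eq, Finset.mul_sum]
    refine Finset.sum_le_sum fun j _ => ?_
    rw [PiLp.sub_apply, PiLp.sub_apply, phiV_apply, phiV_apply, ← mul_sub, mul_pow]
    have h2 : (max (u j) 0 - max (v j) 0) ^ 2 ≤ (u j - v j) ^ 2 := by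
      rw [← sq_abs, ← sq_abs (u j - v j)]
      exact pow_le_pow_left₀ (abs_nonneg _) (abs_max_sub_max_le_abs _ _ _) 2
    have h3 : (K j : ℝ) ^ 2 ≤ P ^ 2 := pow_le_pow_left₀ (Nat.cast_nonneg _) (hK j) 2
    exact mul_le_mul h3 h2 (sq_nonneg _) (sq_nonneg _)
  exact abs_le_of_sq_le_sq' h1 (by positivity) |>.2

/-- A quotient `f g / ‖·‖` of degree one functions is Lipschitz. -/
theorem abs_mul_div_sub_le {E : Type*} [NormedAddCommGroup E] {f g : E → ℝ} {A B : ℝ}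
    (hA : 0 ≤ A) (hB : 0 ≤ B) (hf : ∀ u v, |f u - f v| ≤ A * ‖u - v‖)
    (hg : ∀ u v, |g u - g v| ≤ B * ‖u - v‖) (hf0 : f 0 = 0) (hg0 : g 0 = 0) (u v : E) :
    |‖u‖⁻¹ * f u * g u - ‖v‖⁻¹ * f v * g v| ≤ 3 * A * B * ‖u - v‖ := by
  wlog h : ‖v‖ ≤ ‖u‖ with H
  · rw [abs_sub_comm, norm_sub_rev]
    exact H hA hB hf hg hf0 hg0 v u (le_of_not_ge h)
  have hfa : ∀ u, |f u| ≤ A * ‖u‖ := fun u => by have := hf u 0; rwa [hf0, sub_zero, sub_zero] at this
  have hga : ∀ u, |g u| ≤ B * ‖u‖ := fun u => by have := hg u 0; rwa [hg0, sub_zero, sub_zero] at this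
  rcases (norm_nonneg v).eq_or_lt with hv | hv
  · have hv0 : v = 0 := norm_eq_zero.mp hv.symm
    subst hv0
    rw [hf0, mul_zero, zero_mul, sub_zero, sub_zero, abs_mul, abs_mul, abs_inv, abs_norm]
    rcases (norm_nonneg u).eq_or_lt with hu | hu
    · rw [← hu]; simp
    · have h1 : ‖u‖⁻¹ * |f u| ≤ A := by
        rw [inv_mul_le_iff₀ hu, mul_comm]; exact hfa u
      have h2 : ‖u‖⁻¹ * |f u| * |g u| ≤ A * (B * ‖u‖) :=
        mul_le_mul h1 (hga u) (abs_nonneg _) hA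
      have : 0 ≤ A * B * ‖u‖ := by positivity
      nlinarith
  · have hu : 0 < ‖u‖ := lt_of_lt_of_le hv h
    have e : ‖u‖⁻¹ * f u * g u - ‖v‖⁻¹ * f v * g v =
        (‖u‖⁻¹ * f u) * (g u - g v) + (‖u‖⁻¹ * (f u - f v)) * g v +
          (‖u‖⁻¹ - ‖v‖⁻¹) * f v * g v := by ring
    rw [e]
    have h1 : ‖u‖⁻¹ * |f u| ≤ A := by
      rw [inv_mul_le_iff₀ hu, mul_comm]; exact hfa u
    have a1 : |(‖u‖⁻¹ * f u) * (g u - g v)| ≤ A * (B * ‖u - v‖) := by
      rw [abs_mul, abs_mul, abs_inv, abs_norm]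
      exact mul_le_mul h1 (hg u v) (abs_nonneg _) hA
    have a2 : |(‖u‖⁻¹ * (f u - f v)) * g v| ≤ A * (B * ‖u - v‖) := by
      rw [abs_mul, abs_mul, abs_inv, abs_norm]
      have h2 : |g v| ≤ B * ‖u‖ := (hga v).trans (mul_le_mul_of_nonneg_left h hB)
      calc ‖u‖⁻¹ * |f u - f v| * |g v| ≤ ‖u‖⁻¹ * (A * ‖u - v‖) * (B * ‖u‖) :=
            mul_le_mul (mul_le_mul_of_nonneg_left (hf u v) (inv_pos.mpr hu).le) h2 (abs_nonneg _)
              (by positivity)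
        _ = A * (B * ‖u - v‖) := by field_simp
    have a3 : |(‖u‖⁻¹ - ‖v‖⁻¹) * f v * g v| ≤ A * (B * ‖u - v‖) := by
      rw [abs_mul, abs_mul]
      have h2 : |‖u‖⁻¹ - ‖v‖⁻¹| ≤ ‖u - v‖ / (‖u‖ * ‖v‖) := by
        rw [inv_sub_inv hu.ne' hv.ne', abs_div, abs_of_pos (mul_pos hu hv)]
        refine div_le_div_of_nonneg_right ?_ (mul_pos hu hv).le
        rw [abs_sub_comm]
        exact abs_norm_sub_norm_le u v
      have h3 : |f v| * |g v| ≤ (A * ‖v‖) * (B * ‖u‖) :=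
        mul_le_mul (hfa v) ((hga v).trans (mul_le_mul_of_nonneg_left h hB)) (abs_nonneg _)
          (by positivity)
      calc |‖u‖⁻¹ - ‖v‖⁻¹| * |f v| * |g v| = |‖u‖⁻¹ - ‖v‖⁻¹| * (|f v| * |g v|) := by ring
        _ ≤ ‖u - v‖ / (‖u‖ * ‖v‖) * ((A * ‖v‖) * (B * ‖u‖)) :=
            mul_le_mul h2 h3 (by positivity) (by positivity)
        _ = A * (B * ‖u - v‖) := by field_simp
    have b1 := abs_add_le ((‖u‖⁻¹ * f u) * (g u - g v) + (‖u‖⁻¹ * (f u - f v)) * g v)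
      ((‖u‖⁻¹ - ‖v‖⁻¹) * f v * g v)
    have b2 := abs_add_le ((‖u‖⁻¹ * f u) * (g u - g v)) ((‖u‖⁻¹ * (f u - f v)) * g v)
    linarith

theorem muV_zero (δ : ℝ) : muV δ (0 : EuclideanSpace ℝ ι) = 0 := by
  ext j; simp

theorem ppV_zero (d : ℝ) (j : ι) : ppV d (0 : EuclideanSpace ℝ ι) j = 0 := by
  simp [ppV]

theorem abs_etaV_sub_le {δ d : ℝ} (hδ : 0 ≤ δ) (hd : 0 ≤ d) (u v : EuclideanSpace ℝ ι) (j : ι) :
    |etaV δ d u j - etaV δ d v j| ≤
      Fintype.card ι * (3 * (2 * (1 + δ)) * (2 * (1 + d)) * ‖u - v‖) := by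
  rw [etaV_apply, etaV_apply, ← Finset.sum_sub_distrib]
  refine (Finset.abs_sum_le_sum_abs _ _).trans ?_
  have h : ∀ i ∈ (Finset.univ : Finset ι), |nuV δ u i * (ppV d u i - ppV d u j) -
      nuV δ v i * (ppV d v i - ppV d v j)| ≤ 3 * (2 * (1 + δ)) * (2 * (1 + d)) * ‖u - v‖ := by
    intro i _
    refine abs_mul_div_sub_le (f := fun u : EuclideanSpace ℝ ι => muV δ u i)
      (g := fun u => ppV d u i - ppV d u j) (by positivity) (by positivity)
      (fun u v => abs_muV_sub_le hδ u v i) (fun u v => ?_) ?_ ?_ u v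
    · have h1 := abs_ppV_sub_le hd u v i
      have h2 := abs_ppV_sub_le hd u v j
      have e : ppV d u i - ppV d u j - (ppV d v i - ppV d v j) =
        (ppV d u i - ppV d v i) - (ppV d u j - ppV d v j) := by ring
      rw [e]
      refine (abs_sub _ _).trans ?_
      linarith
    · rw [muV_zero]; rfl
    · rw [ppV_zero, ppV_zero, sub_zero]
  refine (Finset.sum_le_sum h).trans (le_of_eq ?_)
  simp

theorem norm_etaV_sub_le {δ d : ℝ} (hδ : 0 ≤ δ) (hd : 0 ≤ d) (u v : EuclideanSpace ℝ ι) :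
    ‖etaV δ d u - etaV δ d v‖ ≤
      Fintype.card ι * (Fintype.card ι * (3 * (2 * (1 + δ)) * (2 * (1 + d)))) * ‖u - v‖ := by
  have := norm_le_card_mul (u := etaV δ d u - etaV δ d v)
    (C := Fintype.card ι * (3 * (2 * (1 + δ)) * (2 * (1 + d)) * ‖u - v‖)) (by positivity)
    fun j => by rw [PiLp.sub_apply]; exact abs_etaV_sub_le hδ hd u v j
  linarith

/-- Lipschitz constant of `etaV`. -/
noncomputable def lipEta (ι : Type*) [Fintype ι] (δ d : ℝ) : ℝ :=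
  Fintype.card ι * (Fintype.card ι * (3 * (2 * (1 + δ)) * (2 * (1 + d))))

theorem lipEta_nonneg {δ d : ℝ} (hδ : 0 ≤ δ) (hd : 0 ≤ d) : 0 ≤ lipEta ι δ d := by
  unfold lipEta; positivity

theorem norm_cV_sub_le {δ d : ℝ} (hδ : 0 ≤ δ) (hd : 0 ≤ d) (θ : ℝ) (G : (ι → ℕ) → ℝ)
    {P : ℝ} (K : ι → ℕ) (hK : ∀ j, (K j : ℝ) ≤ P) (hP : 0 ≤ P) (u v : EuclideanSpace ℝ ι) :
    ‖cV δ d θ G K u - cV δ d θ G K v‖ ≤ (P + |θ * G K| * lipEta ι δ d) * ‖u - v‖ := by
  have e : cV δ d θ G K u - cV δ d θ G K v =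
      (phiV K u - phiV K v) + (θ * G K) • (etaV δ d u - etaV δ d v) := by
    unfold cV; rw [smul_sub]; abel
  rw [e]
  refine (norm_add_le _ _).trans ?_
  rw [norm_smul, Real.norm_eq_abs]
  have h1 := norm_phiV_sub_le K hK hP u v
  have h2 := mul_le_mul_of_nonneg_left (norm_etaV_sub_le hδ hd u v) (abs_nonneg (θ * G K))
  unfold lipEta
  linarith

theorem lipschitz_etaV {δ d : ℝ} (hδ : 0 ≤ δ) (hd : 0 ≤ d) :
    LipschitzWith (Real.toNNReal (lipEta ι δ d))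
      (etaV δ d : EuclideanSpace ℝ ι → EuclideanSpace ℝ ι) :=
  LipschitzWith.of_dist_le_mul fun u v => by
    rw [Real.coe_toNNReal _ (lipEta_nonneg hδ hd), dist_eq_norm, dist_eq_norm]
    exact norm_etaV_sub_le hδ hd u v

theorem continuous_etaV {δ d : ℝ} (hδ : 0 ≤ δ) (hd : 0 ≤ d) :
    Continuous (etaV δ d : EuclideanSpace ℝ ι → EuclideanSpace ℝ ι) :=
  (lipschitz_etaV hδ hd).continuous

theorem continuous_cV {δ d : ℝ} (hδ : 0 ≤ δ) (hd : 0 ≤ d) (θ : ℝ) (G : (ι → ℕ) → ℝ) (K : ι → ℕ) :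
    Continuous (cV δ d θ G K : EuclideanSpace ℝ ι → EuclideanSpace ℝ ι) := by
  have h1 : Continuous fun u : EuclideanSpace ℝ ι => (θ * G K) • etaV δ d u :=
    (continuous_etaV hδ hd).const_smul (θ * G K)
  exact (continuous_phiV K).add h1

/-- Joint continuity in `(θ, u)`. -/
theorem continuous_cV_param {δ d : ℝ} (hδ : 0 ≤ δ) (hd : 0 ≤ d) (G : (ι → ℕ) → ℝ) (K : ι → ℕ) :
    Continuous fun p : ℝ × EuclideanSpace ℝ ι => cV δ d p.1 G K p.2 := by
  have h1 : Continuous fun p : ℝ × EuclideanSpace ℝ ι => (p.1 * G K) • etaV δ d p.2 :=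
    (continuous_fst.mul continuous_const).smul ((continuous_etaV hδ hd).comp continuous_snd)
  exact ((continuous_phiV K).comp continuous_snd).add h1

/-- Local Lipschitz estimate for the normal. -/
theorem norm_nuV_sub_le {δ : ℝ} (hδ : 0 ≤ δ) {u v : EuclideanSpace ℝ ι} (hu : u ≠ 0) (hv : v ≠ 0) :
    ‖nuV δ u - nuV δ v‖ ≤ (Fintype.card ι * (2 * (1 + δ)) + 1) / ‖u‖ * ‖u - v‖ := by
  have hu' : 0 < ‖u‖ := norm_pos_iff.mpr hu
  have hv' : 0 < ‖v‖ := norm_pos_iff.mpr hv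
  have e : nuV δ u - nuV δ v = ‖u‖⁻¹ • (muV δ u - muV δ v) + (‖u‖⁻¹ - ‖v‖⁻¹) • muV δ v := by
    unfold nuV; rw [smul_sub, sub_smul]; abel
  rw [e]
  refine (norm_add_le _ _).trans ?_
  rw [norm_smul, norm_smul, norm_inv, norm_norm]
  have h1 := mul_le_mul_of_nonneg_left (norm_muV_sub_le hδ u v) (inv_pos.mpr hu').le
  have h2 : ‖‖u‖⁻¹ - ‖v‖⁻¹‖ * ‖muV δ v‖ ≤ ‖u‖⁻¹ * ‖u - v‖ := by
    rw [Real.norm_eq_abs, inv_sub_inv hu'.ne' hv'.ne', abs_div, abs_of_pos (mul_pos hu' hv')]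
    have h3 : |‖v‖ - ‖u‖| ≤ ‖u - v‖ := by rw [abs_sub_comm]; exact abs_norm_sub_norm_le u v
    calc |‖v‖ - ‖u‖| / (‖u‖ * ‖v‖) * ‖muV δ v‖ ≤ ‖u - v‖ / (‖u‖ * ‖v‖) * ‖v‖ :=
          mul_le_mul (div_le_div_of_nonneg_right h3 (mul_pos hu' hv').le) (norm_muV_le hδ v)
            (norm_nonneg _) (by positivity)
      _ = ‖u‖⁻¹ * ‖u - v‖ := by field_simp
  calc ‖u‖⁻¹ * ‖muV δ u - muV δ v‖ + ‖‖u‖⁻¹ - ‖v‖⁻¹‖ * ‖muV δ v‖
      ≤ ‖u‖⁻¹ * (Fintype.card ι * (2 * (1 + δ)) * ‖u - v‖) + ‖u‖⁻¹ * ‖u - v‖ := add_le_add h1 h2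
    _ = _ := by field_simp

/-! ### The functional `G` -/

/-- A positive additive functional, strictly monotone, injective on `{K ≤ P}`. -/
theorem exists_G (ι : Type*) [Fintype ι] (P : ℕ) : ∃ G : (ι → ℕ) → ℝ, StrictMono G ∧
    Set.InjOn G {K | ∀ j, K j ≤ P} ∧ (∀ K L, G (K + L) = G K + G L) ∧ G 0 = 0 ∧
    (∀ K, ∃ m : ℕ, G K = m) := by
  classical
  let e : ι ≃ Fin (Fintype.card ι) := Fintype.equivFin ι
  let g : (ι → ℕ) → ℕ := fun K => ∑ j, K j * (P + 1) ^ (e j : ℕ)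
  have gadd : ∀ K L, g (K + L) = g K + g L := fun K L => by
    simp only [g, Pi.add_apply, add_mul, Finset.sum_add_distrib]
  have gpos : ∀ K : ι → ℕ, K ≠ 0 → 0 < g K := fun K hK => by
    obtain ⟨j, hj⟩ := Function.ne_iff.mp hK
    refine Finset.sum_pos' (fun _ _ => Nat.zero_le _) ⟨j, Finset.mem_univ _, ?_⟩
    exact Nat.mul_pos (Nat.pos_of_ne_zero hj) (by positivity)
  refine ⟨fun K => (g K : ℝ), ?_, ?_, ?_, ?_, fun K => ⟨g K, rfl⟩⟩
  · intro K L hKL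
    have hle : K ≤ L := hKL.le
    have e1 : L = K + (L - K) := (add_tsub_cancel_of_le hle).symm
    have hne : L - K ≠ 0 := by
      intro h
      rw [h, add_zero] at e1
      exact hKL.ne e1.symm
    have h1 := gpos _ hne
    show (g K : ℝ) < g L
    rw [e1, gadd]
    exact_mod_cast Nat.lt_add_of_pos_right h1
  · intro K hK L hL h
    have h' : g K = g L := by
      have : (g K : ℝ) = g L := h
      exact_mod_cast this
    have hd : ∀ (M : ι → ℕ), g M = ∑ i : Fin (Fintype.card ι), M (e.symm i) * (P + 1) ^ (i : ℕ) := by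
      intro M
      show ∑ j, M j * (P + 1) ^ (e j : ℕ) = _
      rw [← Equiv.sum_comp e.symm]
      exact Finset.sum_congr rfl fun i _ => by rw [Equiv.apply_symm_apply]
    rw [hd, hd] at h'
    have hb : ∀ M : ι → ℕ, (∀ j, M j ≤ P) → ∀ i : Fin (Fintype.card ι), M (e.symm i) < P + 1 :=
      fun M hM i => Nat.lt_succ_of_le (hM _)
    -- base `P + 1` digits
    have key : ∀ (n : ℕ) (a b : Fin n → ℕ), (∀ i, a i < P + 1) → (∀ i, b i < P + 1) →
        ∑ i, a i * (P + 1) ^ (i : ℕ) = ∑ i, b i * (P + 1) ^ (i : ℕ) → a = b := by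
      intro n
      induction n with
      | zero => intro a b _ _ _; exact Subsingleton.elim _ _
      | succ n ih =>
        intro a b ha hb h
        rw [Fin.sum_univ_succ, Fin.sum_univ_succ] at h
        simp only [Fin.val_zero, pow_zero, mul_one, Fin.val_succ, pow_succ] at h
        have ea : ∀ c : Fin (n + 1) → ℕ, ∑ i : Fin n, c i.succ * ((P + 1) ^ (i : ℕ) * (P + 1)) =
            (∑ i : Fin n, c i.succ * (P + 1) ^ (i : ℕ)) * (P + 1) := fun c => by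
          rw [Finset.sum_mul]
          exact Finset.sum_congr rfl fun i _ => by ring
        rw [ea, ea] at h
        have h0 : a 0 = b 0 := by
          have := congrArg (· % (P + 1)) h
          simp only [Nat.add_mul_mod_self_right] at this
          rwa [Nat.mod_eq_of_lt (ha 0), Nat.mod_eq_of_lt (hb 0)] at this
        have h1 : ∑ i : Fin n, a i.succ * (P + 1) ^ (i : ℕ) =
            ∑ i : Fin n, b i.succ * (P + 1) ^ (i : ℕ) := by
          rw [h0] at h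
          exact Nat.eq_of_mul_eq_mul_right (Nat.succ_pos P) (Nat.add_left_cancel h)
        have h2 := ih (fun i => a i.succ) (fun i => b i.succ) (fun i => ha _) (fun i => hb _) h1
        funext i
        refine Fin.cases h0 (fun i => congrFun h2 i) i
    have := key _ _ _ (hb K hK) (hb L hL) h'
    funext j
    have h3 := congrFun this (e j)
    simpa using h3
  · intro K L
    show ((g (K + L) : ℕ) : ℝ) = g K + g L
    rw [gadd]; push_cast; ring
  · show ((g 0 : ℕ) : ℝ) = 0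
    simp [g]

/-- `G` for a finite family of multi-indices. -/
theorem exists_G_family {σ : Type*} [Finite σ] {K : σ → ι → ℕ} (hK : Function.Injective K) :
    ∃ G : (ι → ℕ) → ℝ, StrictMono G ∧ (∀ a b, a ≠ b → G (K a) ≠ G (K b)) ∧ (∀ L, 0 ≤ G L) ∧
      (∀ a b, a ≠ b → 1 ≤ |G (K a) - G (K b)|) := by
  cases nonempty_fintype σ
  set P : ℕ := ∑ a, ∑ j, K a j with hP
  obtain ⟨G, h1, h2, h3, h4, h5⟩ := exists_G ι P
  have hle : ∀ a j, K a j ≤ P := fun a j => by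
    have h6 : K a j ≤ ∑ j, K a j :=
      Finset.single_le_sum (f := fun j => K a j) (fun _ _ => Nat.zero_le _) (Finset.mem_univ j)
    have h7 : ∑ j, K a j ≤ P :=
      Finset.single_le_sum (f := fun a => ∑ j, K a j) (fun _ _ => Nat.zero_le _)
        (Finset.mem_univ a)
    exact h6.trans h7
  have hne : ∀ a b, a ≠ b → G (K a) ≠ G (K b) := fun a b hab h =>
    hab (hK (h2 (fun j => hle a j) (fun j => hle b j) h))
  refine ⟨G, h1, hne, fun L => ?_, fun a b hab => ?_⟩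
  · obtain ⟨m, hm⟩ := h5 L
    rw [hm]; positivity
  · obtain ⟨m, hm⟩ := h5 (K a)
    obtain ⟨n, hn⟩ := h5 (K b)
    have h8 := hne a b hab
    rw [hm, hn] at h8 ⊢
    have h9 : ((m : ℤ) - n : ℤ) ≠ 0 := by
      intro h'
      apply h8
      have : (m : ℤ) = n := by linarith
      exact_mod_cast this
    have h10 := Int.one_le_abs h9
    have : ((1 : ℤ) : ℝ) ≤ ((|((m : ℤ) - n : ℤ)| : ℤ) : ℝ) := by exact_mod_cast h10
    push_cast at this
    exact this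

/-- Smallness of `θ`, uniformly over a finite family. -/
theorem exists_theta {σ : Type*} [Finite σ] (K : σ → ι → ℕ) (G : (ι → ℕ) → ℝ) (C : ℝ) :
    ∃ θ₀ > 0, ∀ θ, 0 ≤ θ → θ ≤ θ₀ → ∀ a b, C * θ * |G (K a) - G (K b)| ≤ 1 := by
  cases nonempty_fintype σ
  set S : ℝ := ∑ a, ∑ b, |G (K a) - G (K b)| with hS
  have hS0 : 0 ≤ S := Finset.sum_nonneg fun a _ => Finset.sum_nonneg fun b _ => abs_nonneg _
  have hle : ∀ a b, |G (K a) - G (K b)| ≤ S := fun a b => by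
    have h6 : |G (K a) - G (K b)| ≤ ∑ b, |G (K a) - G (K b)| :=
      Finset.single_le_sum (f := fun b => |G (K a) - G (K b)|) (fun _ _ => abs_nonneg _)
        (Finset.mem_univ b)
    have h7 : ∑ b, |G (K a) - G (K b)| ≤ S :=
      Finset.single_le_sum (f := fun a => ∑ b, |G (K a) - G (K b)|)
        (fun a _ => Finset.sum_nonneg fun b _ => abs_nonneg _) (Finset.mem_univ a)
    exact h6.trans h7
  refine ⟨1 / ((|C| + 1) * (S + 1)), by positivity, fun θ hθ hθ' a b => ?_⟩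
  have h1 : C * θ * |G (K a) - G (K b)| ≤ (|C| + 1) * θ * (S + 1) := by
    have h2 : C ≤ |C| + 1 := by linarith [le_abs_self C]
    have h3 : |G (K a) - G (K b)| ≤ S + 1 := by linarith [hle a b]
    calc C * θ * |G (K a) - G (K b)| ≤ (|C| + 1) * θ * |G (K a) - G (K b)| :=
          mul_le_mul_of_nonneg_right (mul_le_mul_of_nonneg_right h2 hθ) (abs_nonneg _)
      _ ≤ _ := mul_le_mul_of_nonneg_left h3 (by positivity)
  refine h1.trans ?_
  have h4 : 0 < (|C| + 1) * (S + 1) := by positivity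
  rw [le_div_iff₀ h4] at hθ'
  linarith

/-- **All sheets are distinct** over `{max u > d ‖u‖}` (finite family), `d ≥ 0`. -/
theorem cV_injective' {σ : Type*} {K : σ → ι → ℕ} {G : (ι → ℕ) → ℝ} {δ d θ : ℝ} (hδ0 : 0 ≤ δ)
    (hδ : Fintype.card ι * δ ^ 2 < 1) (hd : 0 ≤ d) (hθ : 0 < θ) (hG : StrictMono G)
    (hne : ∀ a b, a ≠ b → G (K a) ≠ G (K b))
    (hsmall : ∀ a b, 4 * Fintype.card ι * θ * |G (K a) - G (K b)| ≤ 1)
    {u : EuclideanSpace ℝ ι} (hu : ∃ j, d * ‖u‖ < u j) :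
    Function.Injective fun a => cV δ d θ G (K a) u := by
  intro a b hab
  by_contra h
  exact cV_ne' hδ0 hδ hd hθ (hne a b h) (fun h' => hG.monotone h') (fun h' => hG.monotone h')
    (hsmall a b) hu hab

/-- **All sheets are distinct** over `{max u > d ‖u‖}` (finite family). -/
theorem cV_injective {σ : Type*} {K : σ → ι → ℕ} {G : (ι → ℕ) → ℝ} {δ d θ : ℝ} (hδ0 : 0 ≤ δ)
    (hδ : Fintype.card ι * δ ^ 2 < 1) (hd : 0 < d) (hθ : 0 < θ) (hG : StrictMono G)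
    (hne : ∀ a b, a ≠ b → G (K a) ≠ G (K b))
    (hsmall : ∀ a b, 4 * Fintype.card ι * θ * |G (K a) - G (K b)| ≤ 1)
    {u : EuclideanSpace ℝ ι} (hu : ∃ j, d * ‖u‖ < u j) :
    Function.Injective fun a => cV δ d θ G (K a) u :=
  cV_injective' hδ0 hδ hd.le hθ hG hne hsmall hu

/-! ### Quantitative separation -/

/-- Two continuous degree one maps that differ on `{f ≥ 0} ∖ 0` are uniformly separated on
`{f ≥ -κ ‖u‖}`. -/
theorem exists_sep_cone {E F : Type*} [NormedAddCommGroup E] [NormedSpace ℝ E]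
    [FiniteDimensional ℝ E] [NormedAddCommGroup F] [NormedSpace ℝ F] {c₁ c₂ : E → F} {f : E → ℝ}
    (h1 : Continuous c₁) (h2 : Continuous c₂) (hf : Continuous f)
    (s1 : ∀ k : ℝ, 0 ≤ k → ∀ u, c₁ (k • u) = k • c₁ u)
    (s2 : ∀ k : ℝ, 0 ≤ k → ∀ u, c₂ (k • u) = k • c₂ u)
    (sf : ∀ k : ℝ, 0 ≤ k → ∀ u, f (k • u) = k * f u)
    (hne : ∀ u, u ≠ 0 → 0 ≤ f u → c₁ u ≠ c₂ u) :
    ∃ κ > 0, ∀ u, -κ * ‖u‖ ≤ f u → κ * ‖u‖ ≤ ‖c₁ u - c₂ u‖ := by
  have : ProperSpace E := FiniteDimensional.proper ℝ E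
  set m : E → ℝ := fun u => max (-f u) ‖c₁ u - c₂ u‖ with hm
  have hmc : Continuous m := hf.neg.max (h1.sub h2).norm
  obtain ⟨κ, hκ, hκS⟩ : ∃ κ > 0, ∀ u ∈ Metric.sphere (0 : E) 1, κ ≤ m u := by
    rcases (Metric.sphere (0 : E) 1).eq_empty_or_nonempty with he | hne'
    · exact ⟨1, one_pos, fun u hu => by rw [he] at hu; exact hu.elim⟩
    · obtain ⟨u₀, hu₀, hmin⟩ := (isCompact_sphere (0 : E) 1).exists_isMinOn hne' hmc.continuousOn
      refine ⟨m u₀, ?_, fun u hu => hmin hu⟩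
      have hu1 : u₀ ≠ 0 := by
        rintro rfl
        simp at hu₀
      rcases lt_or_ge (f u₀) 0 with h | h
      · exact lt_of_lt_of_le (by linarith : 0 < -f u₀) (le_max_left _ _)
      · exact lt_of_lt_of_le (norm_pos_iff.mpr (sub_ne_zero.mpr (hne u₀ hu1 h)))
          (le_max_right _ _)
  refine ⟨κ / 2, by linarith, fun u hu => ?_⟩
  rcases eq_or_ne u 0 with rfl | hu0
  · simp
  have hn : 0 < ‖u‖ := norm_pos_iff.mpr hu0
  set w : E := ‖u‖⁻¹ • u with hw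
  have hi : 0 ≤ ‖u‖⁻¹ := (inv_pos.mpr hn).le
  have hw1 : w ∈ Metric.sphere (0 : E) 1 := by
    rw [mem_sphere_zero_iff_norm, hw, norm_smul, norm_inv, norm_norm, inv_mul_cancel₀ hn.ne']
  have huw : u = ‖u‖ • w := by rw [hw, smul_smul, mul_inv_cancel₀ hn.ne', one_smul]
  have hfw : f u = ‖u‖ * f w := by
    conv_lhs => rw [huw]
    rw [sf _ hn.le]
  have hcw : ‖c₁ u - c₂ u‖ = ‖u‖ * ‖c₁ w - c₂ w‖ := by
    conv_lhs => rw [huw]
    rw [s1 _ hn.le, s2 _ hn.le, ← smul_sub, norm_smul, norm_norm]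
  have h3 := hκS w hw1
  have h4 : -(κ / 2) ≤ f w := by
    rw [hfw] at hu
    have : ‖u‖ * -(κ / 2) ≤ ‖u‖ * f w := by linarith
    exact le_of_mul_le_mul_left this hn
  have h5 : κ ≤ ‖c₁ w - c₂ w‖ := by
    rcases le_max_iff.mp h3 with h | h
    · exfalso; linarith
    · exact h
  rw [hcw, mul_comm]
  refine mul_le_mul_of_nonneg_left (by linarith) hn.le

/-- **Quantitative separation** of a finite family of sheets on a closed cone inside
`{max u > d ‖u‖}`, `d ≥ 0`. -/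
theorem exists_sepV' {σ : Type*} [Finite σ] {K : σ → ι → ℕ} {G : (ι → ℕ) → ℝ} {δ d θ : ℝ}
    (hδ0 : 0 ≤ δ) (hδ : Fintype.card ι * δ ^ 2 < 1) (hd : 0 ≤ d) (hθ : 0 < θ) (hG : StrictMono G)
    (hne : ∀ a b, a ≠ b → G (K a) ≠ G (K b))
    (hsmall : ∀ a b, 4 * Fintype.card ι * θ * |G (K a) - G (K b)| ≤ 1)
    {f : EuclideanSpace ℝ ι → ℝ} (hf : Continuous f)
    (sf : ∀ k : ℝ, 0 ≤ k → ∀ u, f (k • u) = k * f u)
    (hfd : ∀ u, u ≠ 0 → 0 ≤ f u → ∃ j, d * ‖u‖ < u j) :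
    ∃ κ > 0, ∀ a b, a ≠ b → ∀ u, -κ * ‖u‖ ≤ f u →
      κ * ‖u‖ ≤ ‖cV δ d θ G (K a) u - cV δ d θ G (K b) u‖ := by
  have h : ∀ p : σ × σ, ∃ κ > 0, p.1 ≠ p.2 → ∀ u, -κ * ‖u‖ ≤ f u →
      κ * ‖u‖ ≤ ‖cV δ d θ G (K p.1) u - cV δ d θ G (K p.2) u‖ := by
    intro p
    by_cases hp : p.1 = p.2
    · exact ⟨1, one_pos, fun h => (h hp).elim⟩
    · obtain ⟨κ, hκ, h⟩ := exists_sep_cone (continuous_cV hδ0 hd θ G (K p.1))
        (continuous_cV hδ0 hd θ G (K p.2)) hf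
        (fun k hk u => cV_smul δ d θ G (K p.1) hk u) (fun k hk u => cV_smul δ d θ G (K p.2) hk u)
        sf (fun u hu0 hu hab => hp (cV_injective' hδ0 hδ hd hθ hG hne hsmall (hfd u hu0 hu) hab))
      exact ⟨κ, hκ, fun _ => h⟩
  choose κ hκ hκ' using h
  rcases isEmpty_or_nonempty σ with he | hne'
  · exact ⟨1, one_pos, fun a => (he.false a).elim⟩
  · obtain ⟨p₀, hp₀⟩ := Finite.exists_min κ
    refine ⟨κ p₀, hκ p₀, fun a b hab u hu => ?_⟩
    have h1 := hp₀ (a, b)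
    have hn := norm_nonneg u
    refine le_trans (mul_le_mul_of_nonneg_right h1 hn) (hκ' (a, b) hab u ?_)
    have := mul_le_mul_of_nonneg_right h1 hn
    linarith

/-- **Quantitative separation** of a finite family of sheets on a closed cone inside
`{max u > d ‖u‖}`. -/
theorem exists_sepV {σ : Type*} [Finite σ] {K : σ → ι → ℕ} {G : (ι → ℕ) → ℝ} {δ d θ : ℝ}
    (hδ0 : 0 ≤ δ) (hδ : Fintype.card ι * δ ^ 2 < 1) (hd : 0 < d) (hθ : 0 < θ) (hG : StrictMono G)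
    (hne : ∀ a b, a ≠ b → G (K a) ≠ G (K b))
    (hsmall : ∀ a b, 4 * Fintype.card ι * θ * |G (K a) - G (K b)| ≤ 1)
    {f : EuclideanSpace ℝ ι → ℝ} (hf : Continuous f)
    (sf : ∀ k : ℝ, 0 ≤ k → ∀ u, f (k • u) = k * f u)
    (hfd : ∀ u, u ≠ 0 → 0 ≤ f u → ∃ j, d * ‖u‖ < u j) :
    ∃ κ > 0, ∀ a b, a ≠ b → ∀ u, -κ * ‖u‖ ≤ f u →
      κ * ‖u‖ ≤ ‖cV δ d θ G (K a) u - cV δ d θ G (K b) u‖ :=
  exists_sepV' hδ0 hδ hd.le hθ hG hne hsmall hf sf hfd

end Vale.Agent.P268.T.K372
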