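import Vale.Agent.P268.T.S708.KRe
import Vale.Agent.P268.T.H500.FSide

/-!
# P268, topological half, block B3: the imaginary part `bIm`

* `bIm_eq_inner`: `bIm δ (u, v) = ⟪v - phiV K u, nuV δ u⟫` if `|v j - K j (u j)⁺| ≤ |u j| / 4` for
  all `j` with `δ ‖u‖ < |u j|`; `bIm_eq`: e.g. if `‖v - phiV K u‖ ≤ δ / 4 * ‖u‖`.
* `bIm_flat`: `bIm δ (u, v) = ⟪v, nuV δ u⟫` if `max u ≤ δ ‖u‖`, `‖v‖ ≤ δ / 4 * ‖u‖`.
* `continuous_bIm`, `bIm_smul`.
-/

set_option linter.unusedSectionVars false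
set_option linter.unusedVariables false

namespace Vale.Agent.P268.T.K372

open Set Filter Topology
open scoped RealInnerProductSpace
open Vale.Agent.P268.T

variable {ι : Type} [Fintype ι]

theorem bIm_eq_inner {δ : ℝ} (hδ : 0 ≤ δ) {K : ι → ℕ} {u v : EuclideanSpace ℝ ι}
    (h : ∀ j, δ * ‖u‖ < |u j| → |v j - K j * max (u j) 0| ≤ |u j| / 4) :
    bIm δ (u, v) = ⟪v - phiV K u, nuV δ u⟫ := by
  rw [inner_eq]
  unfold bIm
  refine Finset.sum_congr rfl fun j _ => ?_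
  rw [PiLp.sub_apply, phiV_apply, nuV_apply']
  have h0 : 0 ≤ δ * ‖u‖ := mul_nonneg hδ (norm_nonneg _)
  rcases le_or_gt |u j| (δ * ‖u‖) with hj | hj
  · have h1 := abs_le.mp hj
    rw [max_eq_right (by linarith : |u j| - δ * ‖u‖ ≤ 0),
      max_eq_right (by linarith : u j - δ * ‖u‖ ≤ 0),
      max_eq_right (by linarith : -u j - δ * ‖u‖ ≤ 0)]
    simp
  · have h2 := h j hj
    rcases le_or_gt 0 (u j) with hp | hn
    · rw [abs_of_nonneg hp] at hj h2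
      have hp' : 0 < u j := lt_of_le_of_lt h0 hj
      rw [max_eq_left hp'.le] at h2 ⊢
      have ht := turn_pos hp' h2
      show max (|u j| - δ * ‖u‖) 0 / ‖u‖ * turn ⟨u j, v j⟩ = _
      rw [ht, abs_of_pos hp', max_eq_left (by linarith : 0 ≤ u j - δ * ‖u‖),
        max_eq_right (by linarith : -u j - δ * ‖u‖ ≤ 0)]
      ring
    · rw [abs_of_neg hn] at hj h2
      rw [max_eq_right hn.le, mul_zero, sub_zero] at h2 ⊢
      have ht := turn_neg hn h2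
      show max (|u j| - δ * ‖u‖) 0 / ‖u‖ * turn ⟨u j, v j⟩ = _
      rw [ht, abs_of_neg hn, max_eq_left (by linarith : 0 ≤ -u j - δ * ‖u‖),
        max_eq_right (by linarith : u j - δ * ‖u‖ ≤ 0)]
      ring

theorem bIm_eq {δ : ℝ} (hδ : 0 ≤ δ) {K : ι → ℕ} {u v : EuclideanSpace ℝ ι}
    (h : ‖v - phiV K u‖ ≤ δ / 4 * ‖u‖) : bIm δ (u, v) = ⟪v - phiV K u, nuV δ u⟫ := by
  refine bIm_eq_inner hδ fun j hj => ?_
  have h1 : |v j - K j * max (u j) 0| ≤ ‖v - phiV K u‖ := abs_apply_le (v - phiV K u) j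
  linarith

/-- Same for any centre `c` with `c - phiV K u` orthogonal to the normal. -/
theorem bIm_eq_of_perp {δ : ℝ} (hδ : 0 ≤ δ) {K : ι → ℕ} {u v c : EuclideanSpace ℝ ι}
    (hc : ⟪c - phiV K u, nuV δ u⟫ = 0) (h : ‖v - phiV K u‖ ≤ δ / 4 * ‖u‖) :
    bIm δ (u, v) = ⟪v - c, nuV δ u⟫ := by
  rw [bIm_eq hδ h]
  have e : v - phiV K u = (v - c) + (c - phiV K u) := by abel
  rw [e, inner_add_left, hc, add_zero]

theorem bIm_eq_cV {δ d θ : ℝ} (hδ : 0 ≤ δ) {G : (ι → ℕ) → ℝ} {K : ι → ℕ}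
    {u v : EuclideanSpace ℝ ι} (h : ‖v - phiV K u‖ ≤ δ / 4 * ‖u‖) :
    bIm δ (u, v) = ⟪v - cV δ d θ G K u, nuV δ u⟫ := by
  refine bIm_eq_of_perp hδ ?_ h
  unfold cV
  rw [add_sub_cancel_left, inner_smul_left, inner_etaV_nuV, mul_zero]

theorem bIm_flat {δ : ℝ} (hδ : 0 ≤ δ) {u v : EuclideanSpace ℝ ι} (hu : ∀ j, u j ≤ δ * ‖u‖)
    (h : ‖v‖ ≤ δ / 4 * ‖u‖) : bIm δ (u, v) = ⟪v, nuV δ u⟫ := by
  have h0 : phiV (0 : ι → ℕ) u = 0 := by
    ext j; simp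
  have h1 := bIm_eq (K := (0 : ι → ℕ)) (u := u) (v := v) hδ (by rw [h0, sub_zero]; exact h)
  rw [h0, sub_zero] at h1
  exact h1

theorem abs_bIm_le {δ : ℝ} (hδ : 0 ≤ δ) (x : EuclideanSpace ℝ ι × EuclideanSpace ℝ ι) :
    |bIm δ x| ≤ Fintype.card ι * ‖x.1‖ := by
  unfold bIm
  refine (Finset.abs_sum_le_sum_abs _ _).trans ?_
  calc ∑ j, |max (|x.1 j| - δ * ‖x.1‖) 0 / ‖x.1‖ * turn ⟨x.1 j, x.2 j⟩| ≤ ∑ _j : ι, ‖x.1‖ := by
        refine Finset.sum_le_sum fun j _ => ?_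
        have h1 : |turn ⟨x.1 j, x.2 j⟩| ≤ 1 / 4 * |x.1 j| := turn_bound' _
        have h2 := abs_apply_le x.1 j
        have h3 : 0 ≤ δ * ‖x.1‖ := mul_nonneg hδ (norm_nonneg _)
        have h4 : |max (|x.1 j| - δ * ‖x.1‖) 0 / ‖x.1‖| ≤ 1 := by
          rw [abs_div, abs_of_nonneg (le_max_right _ _), abs_norm]
          refine div_le_one_of_le₀ (max_le (by linarith) (norm_nonneg _)) (norm_nonneg _)
        rw [abs_mul]
        calc _ ≤ 1 * (1 / 4 * |x.1 j|) := mul_le_mul h4 h1 (abs_nonneg _) zero_le_one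
          _ ≤ ‖x.1‖ := by have := abs_nonneg (x.1 j); linarith
    _ = _ := by simp

theorem continuous_bIm {δ : ℝ} (hδ : 0 ≤ δ) :
    Continuous (bIm δ : EuclideanSpace ℝ ι × EuclideanSpace ℝ ι → ℝ) := by
  rw [continuous_iff_continuousAt]
  intro x
  by_cases hx : x.1 = 0
  · have h0 : bIm δ x = 0 := by
      have := abs_bIm_le hδ x
      rw [hx, norm_zero, mul_zero] at this
      exact abs_nonpos_iff.mp this
    rw [ContinuousAt, h0]
    refine squeeze_zero_norm' (a := fun y : EuclideanSpace ℝ ι × EuclideanSpace ℝ ι =>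
      Fintype.card ι * ‖y.1‖) (Eventually.of_forall fun y => ?_) ?_
    · rw [Real.norm_eq_abs]; exact abs_bIm_le hδ y
    · have h2 : Tendsto (fun y : EuclideanSpace ℝ ι × EuclideanSpace ℝ ι =>
          (Fintype.card ι : ℝ) * ‖y.1‖) (𝓝 x) (𝓝 (Fintype.card ι * ‖x.1‖)) :=
        (continuous_const.mul (continuous_norm.comp continuous_fst)).tendsto _
      rw [hx, norm_zero, mul_zero] at h2
      exact h2
  · unfold bIm
    refine tendsto_finsetSum _ fun j _ => ?_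
    have c1 : Continuous fun y : EuclideanSpace ℝ ι × EuclideanSpace ℝ ι => y.1 j :=
      (EuclideanSpace.proj (𝕜 := ℝ) j).continuous.comp continuous_fst
    have c2 : Continuous fun y : EuclideanSpace ℝ ι × EuclideanSpace ℝ ι => y.2 j :=
      (EuclideanSpace.proj (𝕜 := ℝ) j).continuous.comp continuous_snd
    have c3 : Continuous fun y : EuclideanSpace ℝ ι × EuclideanSpace ℝ ι => ‖y.1‖ :=
      continuous_norm.comp continuous_fst
    have c4 : Continuous fun y : EuclideanSpace ℝ ι × EuclideanSpace ℝ ι =>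
        turn ⟨y.1 j, y.2 j⟩ := by
      have e : (fun y : EuclideanSpace ℝ ι × EuclideanSpace ℝ ι => (⟨y.1 j, y.2 j⟩ : ℂ)) =
          fun y => ((y.1 j : ℝ) : ℂ) + ((y.2 j : ℝ) : ℂ) * Complex.I := by
        funext y
        apply Complex.ext <;> simp
      refine continuous_turn'.comp (g := turn)
        (f := fun y : EuclideanSpace ℝ ι × EuclideanSpace ℝ ι => (⟨y.1 j, y.2 j⟩ : ℂ)) ?_
      rw [e]
      exact (Complex.continuous_ofReal.comp c1).add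
        ((Complex.continuous_ofReal.comp c2).mul continuous_const)
    have c5 : ContinuousAt (fun y : EuclideanSpace ℝ ι × EuclideanSpace ℝ ι =>
        max (|y.1 j| - δ * ‖y.1‖) 0 / ‖y.1‖) x :=
      ContinuousAt.div ((c1.abs.sub (continuous_const.mul c3)).max continuous_const).continuousAt
        c3.continuousAt (norm_ne_zero_iff.mpr hx)
    exact c5.mul c4.continuousAt

theorem bIm_smul {δ : ℝ} {r : ℝ} (hr : 0 ≤ r) (x : EuclideanSpace ℝ ι × EuclideanSpace ℝ ι) :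
    bIm δ (r • x) = r * bIm δ x := by
  rcases hr.eq_or_lt with h0 | hr'
  · rw [← h0, zero_mul]
    unfold bIm
    simp
  unfold bIm
  rw [Finset.mul_sum]
  refine Finset.sum_congr rfl fun j _ => ?_
  have e1 : (r • x).1 j = r * x.1 j := rfl
  have e2 : (r • x).2 j = r * x.2 j := rfl
  have e3 : ‖(r • x).1‖ = r * ‖x.1‖ := by
    rw [Prod.smul_fst, norm_smul, Real.norm_eq_abs, abs_of_pos hr']
  have e4 : (⟨r * x.1 j, r * x.2 j⟩ : ℂ) = r • (⟨x.1 j, x.2 j⟩ : ℂ) := by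
    apply Complex.ext <;> simp
  rw [e1, e2, e3, e4, turn_smul' hr, abs_mul, abs_of_pos hr']
  have e5 : max (r * |x.1 j| - δ * (r * ‖x.1‖)) 0 = r * max (|x.1 j| - δ * ‖x.1‖) 0 := by
    rw [mul_max_of_nonneg _ _ hr, mul_zero]
    congr 1
    ring
  rw [e5, mul_div_mul_left _ _ hr'.ne']
  ring

/-- Local form: near a point which is strictly close to the sheet of `K`. -/
theorem bIm_eventually {T : Type*} [TopologicalSpace T] {s : Set T} {t₀ : T} {δ d θ : ℝ}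
    (hδ : 0 ≤ δ) {G : (ι → ℕ) → ℝ} {K : ι → ℕ}
    {x₀ : EuclideanSpace ℝ ι × EuclideanSpace ℝ ι}
    (h : ‖x₀.2 - phiV K x₀.1‖ < δ / 4 * ‖x₀.1‖) :
    ∃ U ∈ 𝓝 x₀, ∀ᶠ _t in 𝓝[s] t₀, ∀ x ∈ U,
      bIm δ x = ⟪x.2 - cV δ d θ G K x.1, nuV δ x.1⟫ := by
  refine ⟨{x | ‖x.2 - phiV K x.1‖ < δ / 4 * ‖x.1‖}, ?_, Eventually.of_forall fun _ x hx => ?_⟩
  · refine (isOpen_lt ?_ ?_).mem_nhds h
    · exact (continuous_snd.sub ((continuous_phiV K).comp continuous_fst)).norm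
    · exact continuous_const.mul (continuous_norm.comp continuous_fst)
  · exact bIm_eq_cV (u := x.1) (v := x.2) hδ (le_of_lt hx)

/-- `nuV` is locally Lipschitz off the origin. -/
theorem locLip_nuV {T : Type*} [TopologicalSpace T] {s : Set T} {t₀ : T} {δ : ℝ} (hδ : 0 ≤ δ)
    {u₀ : EuclideanSpace ℝ ι} (hu : u₀ ≠ 0) :
    LocLip s (fun (_ : T) (u : EuclideanSpace ℝ ι) => nuV δ u) t₀ u₀ := by
  have hn : 0 < ‖u₀‖ := norm_pos_iff.mpr hu
  refine ⟨(Fintype.card ι * (2 * (1 + δ)) + 1) / (‖u₀‖ / 2), {u | ‖u₀‖ / 2 < ‖u‖}, ?_,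
    Eventually.of_forall fun _ u hu1 v hv1 => ?_⟩
  · exact (isOpen_lt continuous_const continuous_norm).mem_nhds (by
      show ‖u₀‖ / 2 < ‖u₀‖; linarith)
  · have hu2 : ‖u₀‖ / 2 < ‖u‖ := hu1
    have hv2 : ‖u₀‖ / 2 < ‖v‖ := hv1
    have hu0 : u ≠ 0 := norm_pos_iff.mp (by linarith)
    have hv0 : v ≠ 0 := norm_pos_iff.mp (by linarith)
    refine (norm_nuV_sub_le hδ hu0 hv0).trans ?_
    refine mul_le_mul_of_nonneg_right ?_ (norm_nonneg _)
    exact div_le_div_of_nonneg_left (by positivity) (by linarith) hu2.le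

theorem locLip_cV {T : Type*} [TopologicalSpace T] {s : Set T} {t₀ : T} {δ d θ : ℝ}
    (hδ : 0 ≤ δ) (hd : 0 ≤ d) (G : (ι → ℕ) → ℝ) (K : ι → ℕ) (u₀ : EuclideanSpace ℝ ι) :
    LocLip s (fun (_ : T) (u : EuclideanSpace ℝ ι) => cV δ d θ G K u) t₀ u₀ := by
  have hP : ∀ j, (K j : ℝ) ≤ ∑ i, (K i : ℝ) := fun j =>
    Finset.single_le_sum (f := fun i => (K i : ℝ)) (fun _ _ => Nat.cast_nonneg _)
      (Finset.mem_univ j)
  exact ⟨(∑ i, (K i : ℝ)) + |θ * G K| * lipEta ι δ d, univ, univ_mem,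
    Eventually.of_forall fun _ u _ v _ => norm_cV_sub_le hδ hd θ G K hP
      (Finset.sum_nonneg fun _ _ => Nat.cast_nonneg _) u v⟩

end Vale.Agent.P268.T.K372
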