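import Vale.Agent.P268.T.K372.SheetsV2
import Vale.Agent.P268.T.S708.Osc

/-!
# P268, topological half, block B3: the scales of the K-form

`ScalesB3 K C G δ ε θ d d' κ ε₁ M s₀`: all the constants of the path from the ray function of a
finite family `K : σ → ι → ℕ` to the K-form.  `C` is an arbitrary large constant chosen by the
user; the existence theorem `exists_scalesB3` holds for every `C`, every `δ > 0` with `N δ² < 1`
and every upper bound for `ε`; it gives `d' = 0`.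
-/

set_option linter.unusedSectionVars false
set_option linter.unusedVariables false

namespace Vale.Agent.P268.T.K372

open Set Filter Topology
open scoped RealInnerProductSpace

variable {ι : Type} [Fintype ι] [Nonempty ι] {σ : Type}

/-- Where `max u ≥ s osc u`, the maximum dominates the norm. -/
theorem norm_le_of_osc_le {d : ℝ} (hd : 0 < d) (hd1 : d ≤ 1) {u : EuclideanSpace ℝ ι}
    (h : d * oscV u ≤ mxV u) : d * ‖u‖ ≤ Real.sqrt (Fintype.card ι) * mxV u := by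
  have h0 : 0 ≤ mxV u := (mul_nonneg hd.le (oscV_nonneg u)).trans h
  have h1 : ∀ j, |(d • u) j| ≤ mxV u := by
    intro j
    have e : (d • u) j = d * u j := rfl
    rw [e, abs_le]
    constructor
    · have h2 := mnV_le u j
      have h3 : d * (mxV u - mnV u) ≤ mxV u := h
      have h4 : d * mnV u ≤ d * u j := mul_le_mul_of_nonneg_left h2 hd.le
      have h5 : 0 ≤ d * mxV u := mul_nonneg hd.le h0
      linarith
    · have h2 := le_mxV u j
      have h4 : d * u j ≤ d * mxV u := mul_le_mul_of_nonneg_left h2 hd.le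
      nlinarith
  have h2 := norm_le_of_abs_le h0 h1
  rwa [norm_smul, Real.norm_eq_abs, abs_of_pos hd] at h2

/-- `max u ≥ d osc u`, `u ≠ 0` implies `max u > d' ‖u‖`, if `√N d' < d ≤ 1`. -/
theorem exists_lt_of_osc_le {d d' : ℝ} (hd : 0 < d) (hd1 : d ≤ 1) (hd'0 : 0 ≤ d')
    (hd' : Real.sqrt (Fintype.card ι) * d' < d) {u : EuclideanSpace ℝ ι} (hu : u ≠ 0)
    (h : d * oscV u ≤ mxV u) : ∃ j, d' * ‖u‖ < u j := by
  obtain ⟨j, hj⟩ := exists_mxV u
  refine ⟨j, ?_⟩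
  rw [← hj]
  have hn : 0 < ‖u‖ := norm_pos_iff.mpr hu
  have hs : 0 < Real.sqrt (Fintype.card ι) := Real.sqrt_pos.mpr (by exact_mod_cast Fintype.card_pos)
  have h1 := norm_le_of_osc_le hd hd1 h
  have h2 : Real.sqrt (Fintype.card ι) * (d' * ‖u‖) < Real.sqrt (Fintype.card ι) * mxV u := by
    calc Real.sqrt (Fintype.card ι) * (d' * ‖u‖) = Real.sqrt (Fintype.card ι) * d' * ‖u‖ := by ring
      _ < d * ‖u‖ := mul_lt_mul_of_pos_right hd' hn
      _ ≤ _ := h1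
  exact lt_of_mul_lt_mul_left h2 hs.le

/-- Conversely the slab is flat: `max u ≤ d osc u` implies `max u ≤ 2 d ‖u‖`. -/
theorem le_of_mx_le_osc {d : ℝ} (hd : 0 ≤ d) {u : EuclideanSpace ℝ ι} (h : mxV u ≤ d * oscV u)
    (j : ι) : u j ≤ 2 * d * ‖u‖ := by
  have h1 := le_mxV u j
  have h2 := mul_le_mul_of_nonneg_left (oscV_le u) hd
  linarith

/-- The scales of block B3. -/
structure ScalesB3 (K : σ → ι → ℕ) (C : ℝ) (G : (ι → ℕ) → ℝ) (δ ε θ d d' κ ε₁ M s₀ : ℝ) :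
    Prop where
  hC : 1 ≤ C
  hG : StrictMono G
  hG0 : ∀ L, 0 ≤ G L
  hGne : ∀ a b, a ≠ b → G (K a) ≠ G (K b)
  hG1 : ∀ a b, a ≠ b → 1 ≤ |G (K a) - G (K b)|
  hδ0 : 0 < δ
  hδ : Fintype.card ι * δ ^ 2 < 1
  hε0 : 0 < ε
  hεδ : C * ε ≤ δ
  hε1 : C * ε ≤ 1
  hθ0 : 0 < θ
  hθs : ∀ a b, 4 * Fintype.card ι * θ * |G (K a) - G (K b)| ≤ 1
  /-- the displacement is small against `ε`, even uniformly in the sheets -/
  hθε : ∀ a, C * θ * G (K a) ≤ ε
  hθε' : C * θ ≤ ε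
  hd0 : 0 < d
  hdε : C * d ≤ ε
  hd1 : d ≤ 1
  hd'0 : 0 ≤ d'
  hd' : Real.sqrt (Fintype.card ι) * d' < d
  hκ0 : 0 < κ
  hκ1 : κ ≤ 1
  /-- separation on a neighbourhood of the front cone -/
  sep : ∀ a b, a ≠ b → ∀ u, d * oscV u - κ * ‖u‖ ≤ mxV u →
    κ * ‖u‖ ≤ ‖cV δ d' θ G (K a) u - cV δ d' θ G (K b) u‖
  hε₁0 : 0 < ε₁
  hε₁κ : C * ε₁ ≤ κ
  hε₁ε : C * ε₁ ≤ ε
  hε₁d : C * ε₁ ≤ d
  hM : C ≤ M
  hMκ : C * ε ≤ κ * M
  hs₀ : C ≤ s₀
  hs₀ε : ∀ a, C * θ * G (K a) ≤ ε₁ * s₀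

/-- Separation for the whole family of fronts `s osc u - max u`, `s ≥ d`. -/
theorem ScalesB3.sep' {K : σ → ι → ℕ} {C : ℝ} {G : (ι → ℕ) → ℝ} {δ ε θ d d' κ ε₁ M s₀ : ℝ}
    (h : ScalesB3 K C G δ ε θ d d' κ ε₁ M s₀) {s : ℝ} (hs : d ≤ s) {a b : σ} (hab : a ≠ b)
    {u : EuclideanSpace ℝ ι} (hu : s * oscV u - κ * ‖u‖ ≤ mxV u) :
    κ * ‖u‖ ≤ ‖cV δ d' θ G (K a) u - cV δ d' θ G (K b) u‖ := by
  refine h.sep a b hab u (le_trans ?_ hu)
  have := mul_le_mul_of_nonneg_right hs (oscV_nonneg u)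
  linarith

/-- At most one thin sheet can be near a point where the front is below `ε ‖u‖`. -/
theorem ScalesB3.thin_unique {K : σ → ι → ℕ} {C : ℝ} {G : (ι → ℕ) → ℝ}
    {δ ε θ d d' κ ε₁ M s₀ : ℝ}
    (h : ScalesB3 K C G δ ε θ d d' κ ε₁ M s₀) (hC : 8 ≤ C) {s : ℝ} (hs : d ≤ s) {a b : σ}
    {u v : EuclideanSpace ℝ ι} (hu0 : u ≠ 0) (hu : frV M s 0 u ≤ ε * ‖u‖)
    (ha : ‖v - cV δ d' θ G (K a) u‖ ≤ 2 * ε₁ * ‖u‖)
    (hb : ‖v - cV δ d' θ G (K b) u‖ ≤ 2 * ε₁ * ‖u‖) : a = b := by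
  by_contra hab
  have hn : 0 < ‖u‖ := norm_pos_iff.mpr hu0
  have hM0 : 0 < M := by have := h.hM; have := h.hC; linarith
  have h1 : s * oscV u - κ * ‖u‖ ≤ mxV u := by
    have e : frV M s 0 u = M * (s * oscV u - mxV u) := by unfold frV; ring
    rw [e] at hu
    have h2 : ε * ‖u‖ ≤ M * (κ * ‖u‖) := by
      have h3 : ε ≤ κ * M := by
        have := h.hMκ
        have := h.hε0
        nlinarith
      have := mul_le_mul_of_nonneg_right h3 hn.le
      linarith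
    have h4 : M * (s * oscV u - mxV u) ≤ M * (κ * ‖u‖) := hu.trans h2
    have := le_of_mul_le_mul_left h4 hM0
    linarith
  have h2 := h.sep' hs hab h1
  have h3 : ‖cV δ d' θ G (K a) u - cV δ d' θ G (K b) u‖ ≤ 4 * ε₁ * ‖u‖ := by
    have e : cV δ d' θ G (K a) u - cV δ d' θ G (K b) u =
        (v - cV δ d' θ G (K b) u) - (v - cV δ d' θ G (K a) u) := by abel
    rw [e]
    refine (norm_sub_le _ _).trans ?_
    linarith
  have h4 : κ * ‖u‖ ≤ 4 * ε₁ * ‖u‖ := h2.trans h3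
  have h5 := le_of_mul_le_mul_right h4 hn
  have h6 := h.hε₁κ
  have h7 := h.hε₁0
  have h8 := h.hκ0
  nlinarith

/-- **Existence of the scales.** -/
theorem exists_scalesB3 [Finite σ] {K : σ → ι → ℕ} (hK : Function.Injective K) {C : ℝ}
    (hC : 1 ≤ C) {δ : ℝ} (hδ0 : 0 < δ) (hδ : Fintype.card ι * δ ^ 2 < 1) {ε₀ : ℝ} (hε₀ : 0 < ε₀) :
    ∃ (G : (ι → ℕ) → ℝ) (ε θ d κ ε₁ M s₀ : ℝ), ε ≤ ε₀ ∧
      ScalesB3 K C G δ ε θ d 0 κ ε₁ M s₀ := by
  cases nonempty_fintype σ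
  obtain ⟨G, hG, hGne, hG0, hG1⟩ := exists_G_family hK
  have hC0 : 0 < C := by linarith
  -- upper bound of `G`
  set S : ℝ := ∑ a, G (K a) with hS
  have hS0 : 0 ≤ S := Finset.sum_nonneg fun a _ => hG0 _
  have hSle : ∀ a, G (K a) ≤ S := fun a =>
    Finset.single_le_sum (f := fun a => G (K a)) (fun a _ => hG0 _) (Finset.mem_univ a)
  -- `ε`
  set ε : ℝ := min ε₀ (min (δ / C) (1 / C)) with hε
  have hεpos : 0 < ε := lt_min hε₀ (lt_min (div_pos hδ0 hC0) (div_pos one_pos hC0))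
  have hεδ : C * ε ≤ δ := by
    have : ε ≤ δ / C := (min_le_right _ _).trans (min_le_left _ _)
    rw [le_div_iff₀ hC0] at this; linarith
  have hε1 : C * ε ≤ 1 := by
    have : ε ≤ 1 / C := (min_le_right _ _).trans (min_le_right _ _)
    rw [le_div_iff₀ hC0] at this; linarith
  -- `θ`
  obtain ⟨θ₀, hθ₀, hθ₀'⟩ := exists_theta K G (4 * Fintype.card ι)
  set θ : ℝ := min θ₀ (ε / (C * (S + 1))) with hθ
  have hθpos : 0 < θ := lt_min hθ₀ (by positivity)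
  have hθS : C * θ * (S + 1) ≤ ε := by
    have : θ ≤ ε / (C * (S + 1)) := min_le_right _ _
    rw [le_div_iff₀ (by positivity)] at this; linarith
  have hθε : ∀ a, C * θ * G (K a) ≤ ε := fun a => by
    refine le_trans (mul_le_mul_of_nonneg_left ?_ (by positivity)) hθS
    linarith [hSle a]
  have hθε' : C * θ ≤ ε := by
    refine le_trans ?_ hθS
    have : 0 ≤ C * θ * S := by positivity
    linarith
  -- `d`
  set d : ℝ := min 1 (ε / C) with hd
  have hdpos : 0 < d := lt_min one_pos (div_pos hεpos hC0)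
  have hdε : C * d ≤ ε := by
    have : d ≤ ε / C := min_le_right _ _
    rw [le_div_iff₀ hC0] at this; linarith
  have hsN : 0 < Real.sqrt (Fintype.card ι) :=
    Real.sqrt_pos.mpr (by exact_mod_cast Fintype.card_pos)
  -- `d'`
  have hd'd : Real.sqrt (Fintype.card ι) * (0 : ℝ) < d := by rw [mul_zero]; exact hdpos
  -- `κ`
  have hsmall : ∀ a b, 4 * Fintype.card ι * θ * |G (K a) - G (K b)| ≤ 1 :=
    hθ₀' θ hθpos.le (min_le_left _ _)
  obtain ⟨κ', hκ', hsep⟩ := exists_sepV' (K := K) (G := G) (δ := δ) (d := 0) (θ := θ) hδ0.le hδ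
    le_rfl hθpos hG hGne hsmall (f := fun u => mxV u - d * oscV u)
    (continuous_mxV.sub (continuous_const.mul (continuous_mxV.sub continuous_mnV)))
    (fun k hk u => by
      rw [mxV_smul hk, oscV_smul hk]; ring)
    (fun u hu hf => exists_lt_of_osc_le hdpos (min_le_left _ _) le_rfl hd'd hu (by linarith))
  set κ : ℝ := min κ' 1 with hκ
  have hκpos : 0 < κ := lt_min hκ' one_pos
  have hsepκ : ∀ a b, a ≠ b → ∀ u : EuclideanSpace ℝ ι, d * oscV u - κ * ‖u‖ ≤ mxV u →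
      κ * ‖u‖ ≤ ‖cV δ 0 θ G (K a) u - cV δ 0 θ G (K b) u‖ := by
    intro a b hab u hu
    have h1 : κ * ‖u‖ ≤ κ' * ‖u‖ := mul_le_mul_of_nonneg_right (min_le_left _ _) (norm_nonneg _)
    exact h1.trans (hsep a b hab u (by linarith))
  -- `ε₁`
  set ε₁ : ℝ := min (κ / C) (min (ε / C) (d / C)) with hε₁
  have hε₁pos : 0 < ε₁ := lt_min (div_pos hκpos hC0) (lt_min (div_pos hεpos hC0)
    (div_pos hdpos hC0))
  have hε₁κ : C * ε₁ ≤ κ := by
    have : ε₁ ≤ κ / C := min_le_left _ _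
    rw [le_div_iff₀ hC0] at this; linarith
  have hε₁ε : C * ε₁ ≤ ε := by
    have : ε₁ ≤ ε / C := (min_le_right _ _).trans (min_le_left _ _)
    rw [le_div_iff₀ hC0] at this; linarith
  have hε₁d : C * ε₁ ≤ d := by
    have : ε₁ ≤ d / C := (min_le_right _ _).trans (min_le_right _ _)
    rw [le_div_iff₀ hC0] at this; linarith
  -- `M`, `s₀`
  refine ⟨G, ε, θ, d, κ, ε₁, max C (C * ε / κ), max C (C * θ * S / ε₁), min_le_left _ _,
    ⟨hC, hG, hG0, hGne, hG1, hδ0, hδ, hεpos, hεδ, hε1, hθpos, hsmall, hθε, hθε', hdpos, hdε,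
      min_le_left _ _, le_rfl, hd'd, hκpos, min_le_right _ _, hsepκ, hε₁pos, hε₁κ, hε₁ε, hε₁d,
      le_max_left _ _, ?_, le_max_left _ _, fun a => ?_⟩⟩
  · have h1 : C * ε / κ ≤ max C (C * ε / κ) := le_max_right _ _
    rw [div_le_iff₀ hκpos] at h1
    linarith
  · have h1 : C * θ * S / ε₁ ≤ max C (C * θ * S / ε₁) := le_max_right _ _
    rw [div_le_iff₀ hε₁pos] at h1
    have h2 : C * θ * G (K a) ≤ C * θ * S :=
      mul_le_mul_of_nonneg_left (hSle a) (by positivity)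
    linarith

end Vale.Agent.P268.T.K372
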