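import Mathlib

/-!
# P268, topological half, block SHEETS, final Euclidean form (373's note 12969)

`u : EuclideanSpace ℝ ι`, all norms Euclidean.

* `ppV d u j = (u j - d ‖u‖)⁺` (`ut_j`), `muV δ u = (u j - δ ‖u‖)⁺ - (-u j - δ ‖u‖)⁺`,
* `nuV δ u = muV δ u / ‖u‖` the normal,
* `phiV K u = (K j * (u j)⁺)_j`,
* `etaV δ d u j = ∑ i, nuV δ u i * (ppV d u i - ppV d u j)`,
* `cV δ d θ G K u = phiV K u + (θ * G K) • etaV δ d u`.
-/

namespace Vale.Agent.P268.T.K372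

open Set Filter Topology
open scoped RealInnerProductSpace

set_option linter.unusedSectionVars false
set_option linter.unusedVariables false

variable {ι : Type*} [Fintype ι]

/-- Shifted positive part. -/
noncomputable def ppV (d : ℝ) (u : EuclideanSpace ℝ ι) (j : ι) : ℝ := max (u j - d * ‖u‖) 0

/-- Shifted signed part (degree one numerator of the normal). -/
noncomputable def muV (δ : ℝ) (u : EuclideanSpace ℝ ι) : EuclideanSpace ℝ ι :=
  WithLp.toLp 2 fun j => max (u j - δ * ‖u‖) 0 - max (-u j - δ * ‖u‖) 0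

/-- The normal (degree zero). -/
noncomputable def nuV (δ : ℝ) (u : EuclideanSpace ℝ ι) : EuclideanSpace ℝ ι := ‖u‖⁻¹ • muV δ u

/-- The ray section. -/
noncomputable def phiV (K : ι → ℕ) (u : EuclideanSpace ℝ ι) : EuclideanSpace ℝ ι :=
  WithLp.toLp 2 fun j => K j * max (u j) 0

/-- The displacement. -/
noncomputable def etaV (δ d : ℝ) (u : EuclideanSpace ℝ ι) : EuclideanSpace ℝ ι :=
  WithLp.toLp 2 fun j => ∑ i, nuV δ u i * (ppV d u i - ppV d u j)

/-- The sheets. -/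
noncomputable def cV (δ d θ : ℝ) (G : (ι → ℕ) → ℝ) (K : ι → ℕ) (u : EuclideanSpace ℝ ι) :
    EuclideanSpace ℝ ι := phiV K u + (θ * G K) • etaV δ d u

@[simp] theorem muV_apply (δ : ℝ) (u : EuclideanSpace ℝ ι) (j : ι) :
    muV δ u j = max (u j - δ * ‖u‖) 0 - max (-u j - δ * ‖u‖) 0 := rfl

theorem nuV_apply (δ : ℝ) (u : EuclideanSpace ℝ ι) (j : ι) :
    nuV δ u j = ‖u‖⁻¹ * (max (u j - δ * ‖u‖) 0 - max (-u j - δ * ‖u‖) 0) := rfl

theorem nuV_apply' (δ : ℝ) (u : EuclideanSpace ℝ ι) (j : ι) :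
    nuV δ u j = (max (u j - δ * ‖u‖) 0 - max (-u j - δ * ‖u‖) 0) / ‖u‖ := by
  rw [nuV_apply, div_eq_inv_mul]

@[simp] theorem phiV_apply (K : ι → ℕ) (u : EuclideanSpace ℝ ι) (j : ι) :
    phiV K u j = K j * max (u j) 0 := rfl

theorem etaV_apply (δ d : ℝ) (u : EuclideanSpace ℝ ι) (j : ι) :
    etaV δ d u j = ∑ i, nuV δ u i * (ppV d u i - ppV d u j) := rfl

theorem cV_apply (δ d θ : ℝ) (G : (ι → ℕ) → ℝ) (K : ι → ℕ) (u : EuclideanSpace ℝ ι) (j : ι) :
    cV δ d θ G K u j = K j * max (u j) 0 + θ * G K * etaV δ d u j := rfl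

/-! ### Coordinates and norm -/

theorem abs_apply_le (u : EuclideanSpace ℝ ι) (j : ι) : |u j| ≤ ‖u‖ := by
  rw [← Real.norm_eq_abs]; exact PiLp.norm_apply_le u j

theorem apply_le (u : EuclideanSpace ℝ ι) (j : ι) : u j ≤ ‖u‖ :=
  (le_abs_self _).trans (abs_apply_le u j)

theorem norm_sq_eq (u : EuclideanSpace ℝ ι) : ‖u‖ ^ 2 = ∑ j, u j ^ 2 := by
  rw [EuclideanSpace.norm_sq_eq]
  exact Finset.sum_congr rfl fun j _ => by rw [Real.norm_eq_abs, sq_abs]

theorem inner_eq (u v : EuclideanSpace ℝ ι) : ⟪u, v⟫ = ∑ j, u j * v j := by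
  rw [PiLp.inner_apply]
  exact Finset.sum_congr rfl fun j _ => by simp [mul_comm]

theorem norm_le_of_abs_le {u : EuclideanSpace ℝ ι} {C : ℝ} (hC : 0 ≤ C) (h : ∀ j, |u j| ≤ C) :
    ‖u‖ ≤ Real.sqrt (Fintype.card ι) * C := by
  rw [← Real.sqrt_sq (norm_nonneg u), ← Real.sqrt_sq hC, ← Real.sqrt_mul (Nat.cast_nonneg _)]
  refine Real.sqrt_le_sqrt ?_
  rw [norm_sq_eq]
  calc ∑ j, u j ^ 2 ≤ ∑ _j : ι, C ^ 2 :=
        Finset.sum_le_sum fun j _ => sq_le_sq' (by linarith [neg_abs_le (u j), h j])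
          ((le_abs_self _).trans (h j))
    _ = _ := by simp

theorem norm_le_card_mul {u : EuclideanSpace ℝ ι} {C : ℝ} (hC : 0 ≤ C) (h : ∀ j, |u j| ≤ C) :
    ‖u‖ ≤ Fintype.card ι * C := by
  refine (norm_le_of_abs_le hC h).trans (mul_le_mul_of_nonneg_right ?_ hC)
  rcases Nat.eq_zero_or_pos (Fintype.card ι) with h0 | h0
  · simp [h0]
  · have h1 : (1 : ℝ) ≤ Fintype.card ι := by exact_mod_cast h0
    rw [Real.sqrt_le_left (by linarith)]
    nlinarith

/-- If all `|u j| ≤ δ ‖u‖` and `N δ² < 1`, then `u = 0`. -/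
theorem exists_abs_gt {δ : ℝ} (hδ : Fintype.card ι * δ ^ 2 < 1) {u : EuclideanSpace ℝ ι}
    (hu : u ≠ 0) : ∃ j, δ * ‖u‖ < |u j| := by
  by_contra h
  push Not at h
  have hn : 0 < ‖u‖ := norm_pos_iff.mpr hu
  have h1 : ‖u‖ ^ 2 ≤ (Fintype.card ι * δ ^ 2) * ‖u‖ ^ 2 := by
    rw [norm_sq_eq]
    calc ∑ j, u j ^ 2 ≤ ∑ _j : ι, (δ * ‖u‖) ^ 2 :=
          Finset.sum_le_sum fun j _ => by
            rw [← sq_abs (u j)]
            exact pow_le_pow_left₀ (abs_nonneg _) (h j) 2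
      _ = (Fintype.card ι * δ ^ 2) * ‖u‖ ^ 2 := by simp; ring
      _ = _ := by rw [norm_sq_eq]
  have h2 : 0 < ‖u‖ ^ 2 := by positivity
  nlinarith

/-! ### Signs and bounds -/

theorem ppV_nonneg (d : ℝ) (u : EuclideanSpace ℝ ι) (j : ι) : 0 ≤ ppV d u j := le_max_right _ _

theorem ppV_pos_iff {d : ℝ} {u : EuclideanSpace ℝ ι} {j : ι} : 0 < ppV d u j ↔ d * ‖u‖ < u j := by
  unfold ppV
  rw [lt_max_iff]
  simp

theorem ppV_eq_zero {d : ℝ} {u : EuclideanSpace ℝ ι} {j : ι} (h : u j ≤ d * ‖u‖) :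
    ppV d u j = 0 := max_eq_right (by linarith)

theorem ppV_le_pos {d : ℝ} (hd : 0 ≤ d) (u : EuclideanSpace ℝ ι) (j : ι) :
    ppV d u j ≤ max (u j) 0 := by
  refine max_le_max ?_ le_rfl
  have := mul_nonneg hd (norm_nonneg u)
  linarith

theorem ppV_le_norm {d : ℝ} (hd : 0 ≤ d) (u : EuclideanSpace ℝ ι) (j : ι) :
    ppV d u j ≤ ‖u‖ := (ppV_le_pos hd u j).trans (max_le (apply_le u j) (norm_nonneg _))

theorem nuV_pos_iff {δ : ℝ} (hδ : 0 ≤ δ) {u : EuclideanSpace ℝ ι} {j : ι} :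
    0 < nuV δ u j ↔ δ * ‖u‖ < u j := by
  rcases eq_or_ne u 0 with rfl | hu
  · simp [nuV_apply]
  have hn : 0 < ‖u‖ := norm_pos_iff.mpr hu
  have h0 := mul_nonneg hδ hn.le
  rw [nuV_apply]
  constructor
  · intro h
    by_contra hc
    rw [max_eq_right (by linarith : u j - δ * ‖u‖ ≤ 0)] at h
    have : 0 < 0 - max (-u j - δ * ‖u‖) 0 := by
      by_contra h'
      have := mul_nonpos_of_nonneg_of_nonpos (inv_nonneg.mpr hn.le) (not_lt.mp h')
      linarith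
    have := le_max_right (-u j - δ * ‖u‖) 0
    linarith
  · intro h
    rw [max_eq_left (by linarith : 0 ≤ u j - δ * ‖u‖),
      max_eq_right (by linarith : -u j - δ * ‖u‖ ≤ 0)]
    exact mul_pos (inv_pos.mpr hn) (by linarith)

theorem nuV_nonneg {δ : ℝ} (_hδ : 0 ≤ δ) {u : EuclideanSpace ℝ ι} {j : ι}
    (h : -(δ * ‖u‖) ≤ u j) : 0 ≤ nuV δ u j := by
  rw [nuV_apply, max_eq_right (by linarith : -u j - δ * ‖u‖ ≤ 0), sub_zero]
  exact mul_nonneg (inv_nonneg.mpr (norm_nonneg _)) (le_max_right _ _)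

theorem nuV_nonpos {δ : ℝ} {u : EuclideanSpace ℝ ι} {j : ι}
    (h : u j ≤ δ * ‖u‖) : nuV δ u j ≤ 0 := by
  rw [nuV_apply, max_eq_right (by linarith : u j - δ * ‖u‖ ≤ 0), zero_sub]
  exact mul_nonpos_of_nonneg_of_nonpos (inv_nonneg.mpr (norm_nonneg _))
    (neg_nonpos.mpr (le_max_right _ _))

theorem nuV_eq_zero {δ : ℝ} {u : EuclideanSpace ℝ ι} {j : ι} (h : |u j| ≤ δ * ‖u‖) :
    nuV δ u j = 0 := by
  have h1 := abs_le.mp h
  rw [nuV_apply, max_eq_right (by linarith : u j - δ * ‖u‖ ≤ 0),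
    max_eq_right (by linarith : -u j - δ * ‖u‖ ≤ 0)]
  simp

theorem muV_neg (δ : ℝ) (u : EuclideanSpace ℝ ι) : muV δ (-u) = -muV δ u := by
  ext j
  simp only [muV_apply, PiLp.neg_apply, norm_neg]
  rw [neg_neg]; ring

theorem nuV_neg (δ : ℝ) (u : EuclideanSpace ℝ ι) : nuV δ (-u) = -nuV δ u := by
  unfold nuV; rw [muV_neg, norm_neg, smul_neg]

theorem abs_muV_eq {δ : ℝ} (hδ : 0 ≤ δ) (u : EuclideanSpace ℝ ι) (j : ι) :
    |muV δ u j| = max (|u j| - δ * ‖u‖) 0 := by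
  have h0 := mul_nonneg hδ (norm_nonneg u)
  rw [muV_apply]
  rcases le_total 0 (u j) with h | h
  · rw [abs_of_nonneg h, max_eq_right (by linarith : -u j - δ * ‖u‖ ≤ 0), sub_zero,
      abs_of_nonneg (le_max_right _ _)]
  · rw [abs_of_nonpos h, max_eq_right (by linarith : u j - δ * ‖u‖ ≤ 0), zero_sub, abs_neg,
      abs_of_nonneg (le_max_right _ _)]

theorem abs_muV_le {δ : ℝ} (hδ : 0 ≤ δ) (u : EuclideanSpace ℝ ι) (j : ι) :
    |muV δ u j| ≤ |u j| := by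
  rw [abs_muV_eq hδ]
  refine max_le ?_ (abs_nonneg _)
  have := mul_nonneg hδ (norm_nonneg u)
  linarith

theorem norm_muV_le {δ : ℝ} (hδ : 0 ≤ δ) (u : EuclideanSpace ℝ ι) : ‖muV δ u‖ ≤ ‖u‖ := by
  rw [← Real.sqrt_sq (norm_nonneg u), ← Real.sqrt_sq (norm_nonneg (muV δ u)), norm_sq_eq,
    norm_sq_eq]
  refine Real.sqrt_le_sqrt (Finset.sum_le_sum fun j _ => ?_)
  rw [← sq_abs (u j), ← sq_abs (muV δ u j)]
  exact pow_le_pow_left₀ (abs_nonneg _) (abs_muV_le hδ u j) 2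

theorem norm_nuV_le {δ : ℝ} (hδ : 0 ≤ δ) (u : EuclideanSpace ℝ ι) : ‖nuV δ u‖ ≤ 1 := by
  unfold nuV
  rw [norm_smul, norm_inv, norm_norm]
  rcases (norm_nonneg u).eq_or_lt with h | h
  · rw [← h]; simp
  · rw [inv_mul_le_one₀ h]; exact norm_muV_le hδ u

theorem abs_nuV_le {δ : ℝ} (hδ : 0 ≤ δ) (u : EuclideanSpace ℝ ι) (j : ι) : |nuV δ u j| ≤ 1 :=
  (abs_apply_le _ _).trans (norm_nuV_le hδ u)

/-- The normal does not vanish. -/
theorem nuV_ne_zero {δ : ℝ} (hδ0 : 0 ≤ δ) (hδ : Fintype.card ι * δ ^ 2 < 1)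
    {u : EuclideanSpace ℝ ι} (hu : u ≠ 0) : nuV δ u ≠ 0 := by
  obtain ⟨j, hj⟩ := exists_abs_gt hδ hu
  intro h
  have hn : 0 < ‖u‖ := norm_pos_iff.mpr hu
  have h1 : muV δ u = 0 := by
    unfold nuV at h
    rcases smul_eq_zero.mp h with h' | h'
    · exact absurd h' (inv_ne_zero hn.ne')
    · exact h'
  have h2 := abs_muV_eq hδ0 u j
  rw [h1] at h2
  have h3 : (0 : EuclideanSpace ℝ ι) j = 0 := rfl
  rw [h3, abs_zero, max_eq_left (by linarith)] at h2
  linarith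

/-- Quantitative: `1/√N - δ ≤ ‖ν‖`. -/
theorem le_norm_nuV [Nonempty ι] {δ : ℝ} (hδ0 : 0 ≤ δ) {u : EuclideanSpace ℝ ι} (hu : u ≠ 0) :
    (Real.sqrt (Fintype.card ι))⁻¹ - δ ≤ ‖nuV δ u‖ := by
  have hn : 0 < ‖u‖ := norm_pos_iff.mpr hu
  have hc : (0 : ℝ) < Fintype.card ι := by exact_mod_cast Fintype.card_pos
  have hs : 0 < Real.sqrt (Fintype.card ι) := Real.sqrt_pos.mpr hc
  obtain ⟨j, -, hj⟩ := Finset.exists_max_image (Finset.univ : Finset ι) (fun j => |u j|)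
    Finset.univ_nonempty
  have h1 : ‖u‖ ≤ Real.sqrt (Fintype.card ι) * |u j| :=
    norm_le_of_abs_le (abs_nonneg _) fun i => hj i (Finset.mem_univ i)
  have h2 : (Real.sqrt (Fintype.card ι))⁻¹ * ‖u‖ ≤ |u j| := by
    rw [inv_mul_le_iff₀ hs]; exact h1
  have h3 : (Real.sqrt (Fintype.card ι))⁻¹ * ‖u‖ - δ * ‖u‖ ≤ |muV δ u j| := by
    rw [abs_muV_eq hδ0]
    exact le_trans (by linarith) (le_max_left _ _)
  have h4 : |nuV δ u j| = ‖u‖⁻¹ * |muV δ u j| := by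
    rw [nuV_apply, muV_apply, abs_mul, abs_of_pos (inv_pos.mpr hn)]
  calc (Real.sqrt (Fintype.card ι))⁻¹ - δ
      = ‖u‖⁻¹ * ((Real.sqrt (Fintype.card ι))⁻¹ * ‖u‖ - δ * ‖u‖) := by field_simp
    _ ≤ ‖u‖⁻¹ * |muV δ u j| := mul_le_mul_of_nonneg_left h3 (inv_pos.mpr hn).le
    _ = |nuV δ u j| := h4.symm
    _ ≤ _ := abs_apply_le _ _

/-! ### Homogeneity -/

theorem ppV_smul (d : ℝ) {k : ℝ} (hk : 0 ≤ k) (u : EuclideanSpace ℝ ι) (j : ι) :
    ppV d (k • u) j = k * ppV d u j := by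
  unfold ppV
  rw [norm_smul, Real.norm_eq_abs, abs_of_nonneg hk, mul_max_of_nonneg _ _ hk, mul_zero,
    PiLp.smul_apply, smul_eq_mul]
  congr 1
  ring

theorem muV_smul (δ : ℝ) {k : ℝ} (hk : 0 ≤ k) (u : EuclideanSpace ℝ ι) :
    muV δ (k • u) = k • muV δ u := by
  ext j
  rw [PiLp.smul_apply, muV_apply, muV_apply, norm_smul, Real.norm_eq_abs, abs_of_nonneg hk,
    smul_eq_mul, mul_sub, mul_max_of_nonneg _ _ hk, mul_max_of_nonneg _ _ hk,
    mul_zero, PiLp.smul_apply, smul_eq_mul]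
  congr 2 <;> ring

theorem nuV_smul (δ : ℝ) {k : ℝ} (hk : 0 < k) (u : EuclideanSpace ℝ ι) :
    nuV δ (k • u) = nuV δ u := by
  unfold nuV
  rw [muV_smul δ hk.le, norm_smul, Real.norm_eq_abs, abs_of_pos hk, smul_smul, mul_inv]
  congr 1
  field_simp

theorem phiV_smul (K : ι → ℕ) {k : ℝ} (hk : 0 ≤ k) (u : EuclideanSpace ℝ ι) :
    phiV K (k • u) = k • phiV K u := by
  ext j
  rw [PiLp.smul_apply, phiV_apply, phiV_apply, PiLp.smul_apply, smul_eq_mul, smul_eq_mul]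
  have h2 : max (k * u j) 0 = k * max (u j) 0 := by
    rw [mul_max_of_nonneg _ _ hk, mul_zero]
  rw [h2]; ring

@[simp] theorem nuV_zero (δ : ℝ) : nuV δ (0 : EuclideanSpace ℝ ι) = 0 := by
  ext j; simp [nuV]

@[simp] theorem phiV_zero (K : ι → ℕ) : phiV K (0 : EuclideanSpace ℝ ι) = 0 := by
  ext j; simp

@[simp] theorem etaV_zero (δ d : ℝ) : etaV δ d (0 : EuclideanSpace ℝ ι) = 0 := by
  ext j; simp [etaV_apply]

theorem etaV_smul (δ d : ℝ) {k : ℝ} (hk : 0 ≤ k) (u : EuclideanSpace ℝ ι) :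
    etaV δ d (k • u) = k • etaV δ d u := by
  rcases hk.eq_or_lt with h | h
  · rw [← h, zero_smul, zero_smul, etaV_zero]
  ext j
  rw [PiLp.smul_apply, etaV_apply, etaV_apply, smul_eq_mul, Finset.mul_sum]
  refine Finset.sum_congr rfl fun i _ => ?_
  rw [nuV_smul δ h, ppV_smul d hk, ppV_smul d hk]
  ring

theorem cV_smul (δ d θ : ℝ) (G : (ι → ℕ) → ℝ) (K : ι → ℕ) {k : ℝ} (hk : 0 ≤ k)
    (u : EuclideanSpace ℝ ι) : cV δ d θ G K (k • u) = k • cV δ d θ G K u := by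
  unfold cV
  rw [phiV_smul K hk, etaV_smul δ d hk, smul_add, smul_comm]

@[simp] theorem cV_zero (δ d θ : ℝ) (G : (ι → ℕ) → ℝ) (K : ι → ℕ) :
    cV δ d θ G K (0 : EuclideanSpace ℝ ι) = 0 := by simp [cV]

/-! ### Orthogonality and flatness -/

/-- The displacement is exactly orthogonal to the normal. -/
theorem inner_etaV_nuV (δ d : ℝ) (u : EuclideanSpace ℝ ι) : ⟪etaV δ d u, nuV δ u⟫ = 0 := by
  rw [inner_eq]
  simp only [etaV_apply, Finset.sum_mul]
  have h : ∑ j, ∑ i, nuV δ u i * (ppV d u i - ppV d u j) * nuV δ u j =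
      -∑ j, ∑ i, nuV δ u i * (ppV d u i - ppV d u j) * nuV δ u j := by
    conv_lhs => rw [Finset.sum_comm]
    rw [← Finset.sum_neg_distrib]
    refine Finset.sum_congr rfl fun j _ => ?_
    rw [← Finset.sum_neg_distrib]
    exact Finset.sum_congr rfl fun i _ => by ring
  linarith

theorem inner_cV_nuV (δ d θ : ℝ) (G : (ι → ℕ) → ℝ) (K : ι → ℕ) (u : EuclideanSpace ℝ ι) :
    ⟪cV δ d θ G K u, nuV δ u⟫ = ⟪phiV K u, nuV δ u⟫ := by
  unfold cV
  rw [inner_add_left, inner_smul_left, inner_etaV_nuV, mul_zero, add_zero]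

theorem inner_phiV_nuV_eq_zero {δ : ℝ} (hδ : 0 ≤ δ) (K : ι → ℕ) {u : EuclideanSpace ℝ ι}
    (h : ∀ j, u j ≤ δ * ‖u‖) : ⟪phiV K u, nuV δ u⟫ = 0 := by
  rw [inner_eq]
  refine Finset.sum_eq_zero fun j _ => ?_
  rw [phiV_apply]
  rcases le_total (u j) 0 with h1 | h1
  · rw [max_eq_right h1]; ring
  · rw [nuV_eq_zero, mul_zero]
    rw [abs_of_nonneg h1]; exact h j

/-- Flatness: where `max u ≤ δ ‖u‖` the sheets are exactly orthogonal to the normal. -/
theorem inner_cV_nuV_eq_zero {δ : ℝ} (hδ : 0 ≤ δ) (d θ : ℝ) (G : (ι → ℕ) → ℝ) (K : ι → ℕ)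
    {u : EuclideanSpace ℝ ι} (h : ∀ j, u j ≤ δ * ‖u‖) : ⟪cV δ d θ G K u, nuV δ u⟫ = 0 := by
  rw [inner_cV_nuV, inner_phiV_nuV_eq_zero hδ K h]

theorem nuV_nonpos_of_le {δ : ℝ} {u : EuclideanSpace ℝ ι}
    (h : ∀ j, u j ≤ δ * ‖u‖) (j : ι) : nuV δ u j ≤ 0 := nuV_nonpos (h j)

theorem etaV_eq_zero {δ d : ℝ} {u : EuclideanSpace ℝ ι} (h : ∀ j, u j ≤ d * ‖u‖) :
    etaV δ d u = 0 := by
  ext j
  rw [etaV_apply]
  exact Finset.sum_eq_zero fun i _ => by rw [ppV_eq_zero (h i), ppV_eq_zero (h j)]; ring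

theorem phiV_eq_zero (K : ι → ℕ) {u : EuclideanSpace ℝ ι} (h : ∀ j, u j ≤ 0) : phiV K u = 0 := by
  ext j
  rw [phiV_apply, max_eq_right (h j), mul_zero]; rfl

theorem cV_eq_phiV {δ d : ℝ} (θ : ℝ) (G : (ι → ℕ) → ℝ) (K : ι → ℕ) {u : EuclideanSpace ℝ ι}
    (h : ∀ j, u j ≤ d * ‖u‖) : cV δ d θ G K u = phiV K u := by
  unfold cV; rw [etaV_eq_zero h, smul_zero, add_zero]

theorem cV_eq_zero {δ d : ℝ} (hd : 0 ≤ d) (θ : ℝ) (G : (ι → ℕ) → ℝ) (K : ι → ℕ)
    {u : EuclideanSpace ℝ ι} (h : ∀ j, u j ≤ 0) : cV δ d θ G K u = 0 := by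
  rw [cV_eq_phiV θ G K fun j => (h j).trans (mul_nonneg hd (norm_nonneg _)), phiV_eq_zero K h]

/-! ### Size of the displacement -/

theorem abs_ppV_sub_ppV_le (d : ℝ) (u : EuclideanSpace ℝ ι) (i j : ι) :
    |ppV d u i - ppV d u j| ≤ |u i - u j| := by
  unfold ppV
  refine (abs_max_sub_max_le_abs _ _ _).trans (le_of_eq ?_)
  congr 1; ring

/-- `|η_j| ≤ N * R` whenever `R` bounds the oscillation of `u`. -/
theorem abs_etaV_le {δ : ℝ} (hδ : 0 ≤ δ) (d : ℝ) {u : EuclideanSpace ℝ ι} {R : ℝ}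
    (h : ∀ i j, |u i - u j| ≤ R) (j : ι) : |etaV δ d u j| ≤ Fintype.card ι * R := by
  rw [etaV_apply]
  refine (Finset.abs_sum_le_sum_abs _ _).trans ?_
  calc ∑ i, |nuV δ u i * (ppV d u i - ppV d u j)| ≤ ∑ _i : ι, R :=
        Finset.sum_le_sum fun i _ => by
          rw [abs_mul]
          calc |nuV δ u i| * |ppV d u i - ppV d u j| ≤ 1 * R :=
                mul_le_mul (abs_nuV_le hδ u i) ((abs_ppV_sub_ppV_le d u i j).trans (h i j))
                  (abs_nonneg _) zero_le_one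
            _ = R := one_mul R
    _ = _ := by simp

theorem abs_sub_le_norm (u : EuclideanSpace ℝ ι) (i j : ι) : |u i - u j| ≤ 2 * ‖u‖ := by
  have h1 := abs_apply_le u i
  have h2 := abs_apply_le u j
  exact (abs_sub _ _).trans (by linarith)

theorem abs_etaV_le' {δ d : ℝ} (hδ : 0 ≤ δ) (hd : 0 ≤ d) (u : EuclideanSpace ℝ ι) (j : ι) :
    |etaV δ d u j| ≤ Fintype.card ι * ‖u‖ := by
  rw [etaV_apply]
  refine (Finset.abs_sum_le_sum_abs _ _).trans ?_
  calc ∑ i, |nuV δ u i * (ppV d u i - ppV d u j)| ≤ ∑ _i : ι, ‖u‖ :=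
        Finset.sum_le_sum fun i _ => by
          rw [abs_mul]
          have h1 := ppV_nonneg d u i
          have h2 := ppV_nonneg d u j
          have h3 := ppV_le_norm hd u i
          have h4 := ppV_le_norm hd u j
          have h5 : |ppV d u i - ppV d u j| ≤ ‖u‖ := by rw [abs_le]; constructor <;> linarith
          calc |nuV δ u i| * |ppV d u i - ppV d u j| ≤ 1 * ‖u‖ :=
                mul_le_mul (abs_nuV_le hδ u i) h5 (abs_nonneg _) zero_le_one
            _ = ‖u‖ := one_mul _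
    _ = _ := by simp

theorem norm_etaV_le_osc {δ : ℝ} (hδ : 0 ≤ δ) (d : ℝ) {u : EuclideanSpace ℝ ι} {R : ℝ}
    (hR : 0 ≤ R) (h : ∀ i j, |u i - u j| ≤ R) :
    ‖etaV δ d u‖ ≤ Fintype.card ι * (Fintype.card ι * R) :=
  norm_le_card_mul (by positivity) (abs_etaV_le hδ d h)

theorem norm_etaV_le {δ d : ℝ} (hδ : 0 ≤ δ) (hd : 0 ≤ d) (u : EuclideanSpace ℝ ι) :
    ‖etaV δ d u‖ ≤ Fintype.card ι * (Fintype.card ι * ‖u‖) :=
  norm_le_card_mul (by positivity) (abs_etaV_le' hδ hd u)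

theorem norm_phiV_le {P : ℝ} (K : ι → ℕ) (hK : ∀ j, (K j : ℝ) ≤ P) (hP : 0 ≤ P)
    (u : EuclideanSpace ℝ ι) : ‖phiV K u‖ ≤ P * ‖u‖ := by
  have h1 : ‖phiV K u‖ ^ 2 ≤ (P * ‖u‖) ^ 2 := by
    rw [mul_pow, norm_sq_eq, norm_sq_eq, Finset.mul_sum]
    refine Finset.sum_le_sum fun j _ => ?_
    rw [phiV_apply, mul_pow]
    have h2 : max (u j) 0 ^ 2 ≤ u j ^ 2 := by
      rcases le_total (u j) 0 with h | h
      · rw [max_eq_right h]; nlinarith [sq_nonneg (u j)]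
      · rw [max_eq_left h]
    have h3 : (K j : ℝ) ^ 2 ≤ P ^ 2 := pow_le_pow_left₀ (Nat.cast_nonneg _) (hK j) 2
    exact mul_le_mul h3 h2 (sq_nonneg _) (sq_nonneg _)
  exact abs_le_of_sq_le_sq' h1 (by positivity) |>.2

/-- `‖φ_K(u)‖ ≤ P √N m` whenever `u j ≤ m` for all `j`. -/
theorem norm_phiV_le_max {P m : ℝ} (K : ι → ℕ) (hK : ∀ j, (K j : ℝ) ≤ P) (hm : 0 ≤ m)
    {u : EuclideanSpace ℝ ι} (hu : ∀ j, u j ≤ m) (hP : 0 ≤ P) :
    ‖phiV K u‖ ≤ Real.sqrt (Fintype.card ι) * (P * m) := by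
  refine norm_le_of_abs_le (mul_nonneg hP hm) fun j => ?_
  rw [phiV_apply, abs_mul, abs_of_nonneg (Nat.cast_nonneg (K j) : (0:ℝ) ≤ K j),
    abs_of_nonneg (le_max_right _ _)]
  exact mul_le_mul (hK j) (max_le (hu j) hm) (le_max_right _ _) hP

theorem norm_cV_sub_phiV (δ d θ : ℝ) (G : (ι → ℕ) → ℝ) (K : ι → ℕ) (u : EuclideanSpace ℝ ι) :
    ‖cV δ d θ G K u - phiV K u‖ = |θ * G K| * ‖etaV δ d u‖ := by
  unfold cV
  rw [add_sub_cancel_left, norm_smul, Real.norm_eq_abs]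

/-! ### The sheets never meet -/

/-- `a = ∑ i, ν_i ut_i`. -/
theorem etaV_eq (δ d : ℝ) (u : EuclideanSpace ℝ ι) (j : ι) :
    etaV δ d u j = ∑ i, nuV δ u i * ppV d u i - (∑ i, nuV δ u i) * ppV d u j := by
  rw [etaV_apply, Finset.sum_mul, ← Finset.sum_sub_distrib]
  exact Finset.sum_congr rfl fun i _ => by ring

theorem abs_sum_nuV_le {δ : ℝ} (hδ : 0 ≤ δ) (u : EuclideanSpace ℝ ι) :
    |∑ i, nuV δ u i| ≤ Fintype.card ι := by
  refine (Finset.abs_sum_le_sum_abs _ _).trans ?_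
  calc ∑ i, |nuV δ u i| ≤ ∑ _i : ι, (1 : ℝ) := Finset.sum_le_sum fun i _ => abs_nuV_le hδ u i
    _ = _ := by simp

/-- **Different sheets are disjoint** over `{max u > d ‖u‖}`, `d ≥ 0`. -/
theorem cV_ne' {δ d θ : ℝ} (hδ0 : 0 ≤ δ) (hδ : Fintype.card ι * δ ^ 2 < 1) (hd : 0 ≤ d)
    (hθ : 0 < θ) {G : (ι → ℕ) → ℝ} {K L : ι → ℕ} (hne : G K ≠ G L)
    (hmono1 : K ≤ L → G K ≤ G L) (hmono2 : L ≤ K → G L ≤ G K)
    (hsmall : 4 * Fintype.card ι * θ * |G K - G L| ≤ 1)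
    {u : EuclideanSpace ℝ ι} (hu : ∃ j, d * ‖u‖ < u j) :
    cV δ d θ G K u ≠ cV δ d θ G L u := by
  intro heq
  obtain ⟨j₀, hj₀⟩ := hu
  have hu0 : u ≠ 0 := by
    rintro rfl
    simp at hj₀
  have hn : 0 < ‖u‖ := norm_pos_iff.mpr hu0
  set g : ℝ := G K - G L with hg
  have hg0 : g ≠ 0 := sub_ne_zero.mpr hne
  set a : ℝ := ∑ i, nuV δ u i * ppV d u i with ha
  set b : ℝ := ∑ i, nuV δ u i with hb
  have hpos : ∀ i, 0 < ppV d u i → 0 < u i := fun i hi => by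
    have := ppV_pos_iff.mp hi
    have := mul_nonneg hd hn.le
    linarith
  have hterm : ∀ i, 0 ≤ nuV δ u i * ppV d u i := fun i => by
    rcases (ppV_nonneg d u i).eq_or_lt with h | h
    · rw [← h, mul_zero]
    · refine mul_nonneg (nuV_nonneg hδ0 ?_) h.le
      have := hpos i h
      have := mul_nonneg hδ0 hn.le
      linarith
  have ha0 : 0 ≤ a := Finset.sum_nonneg fun i _ => hterm i
  have key : ∀ j, ((K j : ℝ) - L j) * max (u j) 0 = -(θ * g * (a - b * ppV d u j)) := by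
    intro j
    have h1 : cV δ d θ G K u j = cV δ d θ G L u j := by rw [heq]
    rw [cV_apply, cV_apply, etaV_eq, ← ha, ← hb] at h1
    rw [hg]
    linarith
  have hcard : (1 : ℝ) ≤ Fintype.card ι := by
    have : 0 < Fintype.card ι := Fintype.card_pos_iff.mpr ⟨j₀⟩
    exact_mod_cast this
  have hgp : 0 < |g| := abs_pos.mpr hg0
  have hbN : |b| ≤ Fintype.card ι := abs_sum_nuV_le hδ0 u
  have hbs : θ * |g| * |b| ≤ 1 / 4 := by
    have : θ * |g| * |b| ≤ θ * |g| * Fintype.card ι :=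
      mul_le_mul_of_nonneg_left hbN (by positivity)
    linarith
  rcases ha0.eq_or_lt with ha1 | ha1
  · -- case `a = 0`
    have hmax : ∀ j, u j ≤ δ * ‖u‖ := by
      intro j
      by_contra hc
      have hν : 0 < nuV δ u j := (nuV_pos_iff hδ0).mpr (not_le.mp hc)
      have h0 : nuV δ u j * ppV d u j = 0 :=
        (Finset.sum_eq_zero_iff_of_nonneg fun i _ => hterm i).mp ha1.symm j (Finset.mem_univ j)
      have hp : ppV d u j = 0 := (mul_eq_zero.mp h0).resolve_left hν.ne'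
      have h1 : u j ≤ d * ‖u‖ := by
        by_contra h'
        exact (ppV_pos_iff.mpr (not_le.mp h')).ne' hp
      -- the coordinate `j₀` is then also large
      have h2 : u j < u j₀ := lt_of_le_of_lt h1 hj₀
      have hν0 : 0 < nuV δ u j₀ := (nuV_pos_iff hδ0).mpr (lt_trans (not_le.mp hc) h2)
      have h3 : nuV δ u j₀ * ppV d u j₀ = 0 :=
        (Finset.sum_eq_zero_iff_of_nonneg fun i _ => hterm i).mp ha1.symm j₀ (Finset.mem_univ j₀)
      have := mul_pos hν0 (ppV_pos_iff.mpr hj₀)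
      linarith
    have hb0 : b < 0 := by
      have hle : ∀ i, nuV δ u i ≤ 0 := fun i => nuV_nonpos (hmax i)
      have h1 : b ≤ 0 := Finset.sum_nonpos fun i _ => hle i
      refine lt_of_le_of_ne h1 fun h2 => ?_
      have h3 := (Finset.sum_eq_zero_iff_of_nonpos fun i _ => hle i).mp h2
      exact nuV_ne_zero hδ0 hδ hu0 (by ext i; exact h3 i (Finset.mem_univ i))
    have hp0 : 0 < ppV d u j₀ := ppV_pos_iff.mpr hj₀
    have huj : 0 < u j₀ := hpos j₀ hp0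
    have hk := key j₀
    rw [← ha1, max_eq_left huj.le] at hk
    have hk' : ((K j₀ : ℝ) - L j₀) * u j₀ = θ * g * b * ppV d u j₀ := by rw [hk]; ring
    have habs : |((K j₀ : ℝ) - L j₀)| * u j₀ ≤ 1 / 4 * u j₀ := by
      have h1 : |((K j₀ : ℝ) - L j₀)| * u j₀ = θ * |g| * |b| * ppV d u j₀ := by
        have := congrArg abs hk'
        rw [abs_mul, abs_mul, abs_mul, abs_mul, abs_of_pos huj, abs_of_pos hθ,
          abs_of_pos hp0] at this
        exact this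
      rw [h1]
      have h2 : ppV d u j₀ ≤ u j₀ := by
        have := ppV_le_pos hd u j₀
        rwa [max_eq_left huj.le] at this
      exact mul_le_mul hbs h2 hp0.le (by norm_num)
    have hlt : |((K j₀ : ℝ) - L j₀)| < 1 := by
      have := le_of_mul_le_mul_right habs huj
      linarith
    have hz : (K j₀ : ℝ) - L j₀ = 0 := by
      have h1 : |((K j₀ : ℤ) - L j₀ : ℤ)| < 1 := by
        have : ((|((K j₀ : ℤ) - L j₀ : ℤ)| : ℤ) : ℝ) < 1 := by push_cast; exact hlt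
        exact_mod_cast this
      have h2 := Int.abs_lt_one_iff.mp h1
      exact_mod_cast h2
    rw [hz, zero_mul] at hk'
    have : θ * g * b * ppV d u j₀ ≠ 0 :=
      mul_ne_zero (mul_ne_zero (mul_ne_zero hθ.ne' hg0) hb0.ne) hp0.ne'
    exact this hk'.symm
  · -- case `a > 0`
    have hallpos : ∀ j, 0 < u j := by
      intro j
      by_contra hc
      have h1 : u j ≤ 0 := not_lt.mp hc
      have h2 : ppV d u j = 0 := ppV_eq_zero (h1.trans (mul_nonneg hd hn.le))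
      have hk := key j
      rw [max_eq_right h1, h2, mul_zero, mul_zero, sub_zero] at hk
      have : θ * g * a ≠ 0 := mul_ne_zero (mul_ne_zero hθ.ne' hg0) ha1.ne'
      apply this
      linarith
    have hb0 : 0 ≤ b := Finset.sum_nonneg fun i _ => nuV_nonneg hδ0 (by
      have := hallpos i
      have := mul_nonneg hδ0 hn.le
      linarith)
    -- where the difference is nonzero, `η_j > 0`
    have heta : ∀ j, (K j : ℝ) - L j ≠ 0 → 0 < a - b * ppV d u j := by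
      intro j hj
      have huj := hallpos j
      have h1 : (1 : ℝ) ≤ |(K j : ℝ) - L j| := by
        have h2 : ((K j : ℤ) - L j : ℤ) ≠ 0 := by
          intro h'
          apply hj
          exact_mod_cast h'
        have h3 := Int.one_le_abs h2
        have : ((1 : ℤ) : ℝ) ≤ ((|((K j : ℤ) - L j : ℤ)| : ℤ) : ℝ) := by exact_mod_cast h3
        push_cast at this
        exact this
      have hpp : ppV d u j ≤ u j := by
        have := ppV_le_pos hd u j
        rwa [max_eq_left huj.le] at this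
      have hp0 := ppV_nonneg d u j
      have hk := key j
      rw [max_eq_left huj.le] at hk
      have h4 : |(K j : ℝ) - L j| * u j = θ * |g| * |a - b * ppV d u j| := by
        have := congrArg abs hk
        rw [abs_neg, abs_mul, abs_mul, abs_mul, abs_of_pos huj, abs_of_pos hθ] at this
        exact this
      by_contra hc
      have hc' : a - b * ppV d u j ≤ 0 := not_lt.mp hc
      rw [abs_of_nonpos hc'] at h4
      have h5 : u j ≤ |(K j : ℝ) - L j| * u j := by nlinarith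
      rw [abs_of_nonneg hb0] at hbs
      have h6 : θ * |g| * -(a - b * ppV d u j) ≤ θ * |g| * (b * u j) := by
        refine mul_le_mul_of_nonneg_left ?_ (by positivity)
        have := mul_le_mul_of_nonneg_left hpp hb0
        linarith
      have h7 : θ * |g| * (b * u j) ≤ 1 / 4 * u j := by
        have := mul_le_mul_of_nonneg_right hbs huj.le
        linarith
      linarith
    rcases lt_or_gt_of_ne hg0 with hgn | hgn
    · -- `G K < G L`: then `L ≤ K`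
      have hLK : L ≤ K := by
        intro j
        by_contra hc
        have hlt : (K j : ℝ) < L j := by exact_mod_cast not_le.mp hc
        have hne' : (K j : ℝ) - L j ≠ 0 := (sub_neg.mpr hlt).ne
        have h1 := heta j hne'
        have hk := key j
        rw [max_eq_left (hallpos j).le] at hk
        have h2 : ((K j : ℝ) - L j) * u j < 0 :=
          mul_neg_of_neg_of_pos (by linarith) (hallpos j)
        have h3 : 0 < -(θ * g * (a - b * ppV d u j)) := by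
          have : θ * g * (a - b * ppV d u j) < 0 :=
            mul_neg_of_neg_of_pos (mul_neg_of_pos_of_neg hθ hgn) h1
          linarith
        linarith
      have := hmono2 hLK
      linarith
    · have hKL : K ≤ L := by
        intro j
        by_contra hc
        have hlt : (L j : ℝ) < K j := by exact_mod_cast not_le.mp hc
        have hne' : (K j : ℝ) - L j ≠ 0 := (sub_pos.mpr hlt).ne'
        have h1 := heta j hne'
        have hk := key j
        rw [max_eq_left (hallpos j).le] at hk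
        have h2 : 0 < ((K j : ℝ) - L j) * u j := mul_pos (by linarith) (hallpos j)
        have h3 : 0 < θ * g * (a - b * ppV d u j) := mul_pos (mul_pos hθ hgn) h1
        linarith
      have := hmono1 hKL
      linarith

/-- **Different sheets are disjoint** over `{max u > d ‖u‖}`. -/
theorem cV_ne {δ d θ : ℝ} (hδ0 : 0 ≤ δ) (hδ : Fintype.card ι * δ ^ 2 < 1) (hd : 0 < d)
    (hθ : 0 < θ) {G : (ι → ℕ) → ℝ} {K L : ι → ℕ} (hne : G K ≠ G L)
    (hmono1 : K ≤ L → G K ≤ G L) (hmono2 : L ≤ K → G L ≤ G K)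
    (hsmall : 4 * Fintype.card ι * θ * |G K - G L| ≤ 1)
    {u : EuclideanSpace ℝ ι} (hu : ∃ j, d * ‖u‖ < u j) :
    cV δ d θ G K u ≠ cV δ d θ G L u :=
  cV_ne' hδ0 hδ hd.le hθ hne hmono1 hmono2 hsmall hu

end Vale.Agent.P268.T.K372
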