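import Vale.Agent.P268.T.K372.S4

/-!
# P268, topological half, block B3, stage S4 from the scales
-/

set_option linter.unusedSectionVars false
set_option linter.unusedVariables false

namespace Vale.Agent.P268.T.K372

open Set Filter Topology
open scoped RealInnerProductSpace
open Vale.Agent.P268.T

variable {ι σ : Type} [Fintype ι] [Nonempty ι] [Fintype σ] [Nonempty σ]

/-- Admissible lower bound of the constant `C` of `ScalesB3` for stage S4. -/
noncomputable def C4 (K : σ → ι → ℕ) : ℝ :=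
  16 + 16 * Real.sqrt (Fintype.card ι) * (∑ k, kS (K k)) + 4 * (Fintype.card ι) ^ 2

variable {K : σ → ι → ℕ} {C δ ε θ d d' κ ε₁ M s₀ : ℝ} {G : (ι → ℕ) → ℝ}

theorem kS_sum_nonneg (K : σ → ι → ℕ) : 0 ≤ ∑ k, kS (K k) :=
  Finset.sum_nonneg fun k _ => kS_nonneg _

theorem kS_le_sum (K : σ → ι → ℕ) (k : σ) : kS (K k) ≤ ∑ k, kS (K k) :=
  Finset.single_le_sum (f := fun k => kS (K k)) (fun k _ => kS_nonneg _) (Finset.mem_univ k)

/-- The displacement is at most `ε / 4 * ‖u‖`. -/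
theorem ScalesB3.disp_le (h : ScalesB3 K C G δ ε θ d d' κ ε₁ M s₀) (hC : C4 K ≤ C) (k : σ)
    (u : EuclideanSpace ℝ ι) :
    ‖cV δ d' θ G (K k) u - phiV (K k) u‖ ≤ ε / 4 * ‖u‖ := by
  rw [norm_cV_sub_phiV]
  have hN0 : (0 : ℝ) ≤ (Fintype.card ι : ℝ) := Nat.cast_nonneg _
  have h1 := norm_etaV_le h.hδ0.le h.hd'0 u
  have hG := h.hG0 (K k)
  have hθ := h.hθ0
  have h2 : |θ * G (K k)| = θ * G (K k) := abs_of_nonneg (mul_nonneg hθ.le hG)
  rw [h2]
  have h3 := h.hθε k
  have hS := kS_sum_nonneg K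
  have h4 : 4 * (Fintype.card ι : ℝ) ^ 2 ≤ C := by
    have : 0 ≤ 16 * Real.sqrt (Fintype.card ι) * (∑ k, kS (K k)) := by positivity
    unfold C4 at hC
    linarith
  have hθG : 0 ≤ θ * G (K k) := mul_nonneg hθ.le hG
  have h5 : 4 * (Fintype.card ι : ℝ) ^ 2 * (θ * G (K k)) ≤ ε := by
    have := mul_le_mul_of_nonneg_right h4 hθG
    linarith
  have hn := norm_nonneg u
  calc θ * G (K k) * ‖etaV δ d' u‖ ≤ θ * G (K k) * (Fintype.card ι * (Fintype.card ι * ‖u‖)) :=
        mul_le_mul_of_nonneg_left h1 hθG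
    _ = (4 * (Fintype.card ι : ℝ) ^ 2 * (θ * G (K k))) / 4 * ‖u‖ := by ring
    _ ≤ ε / 4 * ‖u‖ := by
        refine mul_le_mul_of_nonneg_right ?_ hn
        linarith

/-- Behind the front `2 d` the fat centres are at most `ε / 4 * ‖u‖`. -/
theorem ScalesB3.phi_le (h : ScalesB3 K C G δ ε θ d d' κ ε₁ M s₀) (hC : C4 K ≤ C) (k : σ)
    {u : EuclideanSpace ℝ ι} (hu : mxV u ≤ 2 * d * oscV u) :
    ‖phiV (K k) u‖ ≤ ε / 4 * ‖u‖ := by
  have hn := norm_nonneg u
  have hd := h.hd0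
  have hS := kS_sum_nonneg K
  have hsq := Real.sqrt_nonneg (Fintype.card ι : ℝ)
  have h1 : ∀ j, u j ≤ 4 * d * ‖u‖ := fun j => by
    have := le_of_mx_le_osc (by positivity : (0 : ℝ) ≤ 2 * d) hu j
    linarith
  have h2 := norm_phiV_le_max (P := ∑ k, kS (K k)) (K k)
    (fun j => (le_kS (K k) j).trans (kS_le_sum K k)) (by positivity : (0 : ℝ) ≤ 4 * d * ‖u‖) h1 hS
  refine h2.trans ?_
  have h3 : 16 * Real.sqrt (Fintype.card ι) * (∑ k, kS (K k)) ≤ C := by
    have : (0 : ℝ) ≤ 4 * (Fintype.card ι : ℝ) ^ 2 := by positivity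
    unfold C4 at hC
    linarith
  have h4 : 16 * Real.sqrt (Fintype.card ι) * (∑ k, kS (K k)) * d ≤ ε :=
    (mul_le_mul_of_nonneg_right h3 hd.le).trans h.hdε
  calc Real.sqrt (Fintype.card ι) * ((∑ k, kS (K k)) * (4 * d * ‖u‖))
      = (16 * Real.sqrt (Fintype.card ι) * (∑ k, kS (K k)) * d) / 4 * ‖u‖ := by ring
    _ ≤ ε / 4 * ‖u‖ := mul_le_mul_of_nonneg_right (by linarith) hn

/-- The hypotheses of S4 from the scales. -/
theorem ScalesB3.s4Hyp (h : ScalesB3 K C G δ ε θ d d' κ ε₁ M s₀) (hC : C4 K ≤ C) :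
    S4Hyp K δ d' θ G (2 * ε) M (2 * d) (2 * ε₁) := by
  have hS := kS_sum_nonneg K
  have hsq := Real.sqrt_nonneg (Fintype.card ι : ℝ)
  have hC16 : 16 ≤ C := by
    have h1 : 0 ≤ 16 * Real.sqrt (Fintype.card ι) * (∑ k, kS (K k)) := by positivity
    have h2 : (0 : ℝ) ≤ 4 * (Fintype.card ι : ℝ) ^ 2 := by positivity
    unfold C4 at hC
    linarith
  have hε := h.hε0
  have hd := h.hd0
  have hε₁ := h.hε₁0
  have e1 : 16 * ε ≤ δ := (mul_le_mul_of_nonneg_right hC16 hε.le).trans h.hεδ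
  have e2 : 16 * d ≤ ε := (mul_le_mul_of_nonneg_right hC16 hd.le).trans h.hdε
  have e3 : 16 * ε₁ ≤ ε := (mul_le_mul_of_nonneg_right hC16 hε₁.le).trans h.hε₁ε
  have e4 : 16 * ε₁ ≤ κ := (mul_le_mul_of_nonneg_right hC16 hε₁.le).trans h.hε₁κ
  exact
    { hδ0 := h.hδ0
      hδ := h.hδ
      hd' := h.hd'0
      hρ := by linarith
      hρδ := by linarith
      hM := by have := h.hM; linarith
      hs := by linarith
      hsδ := by linarith
      hr := by linarith
      hrρ := by linarith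
      sφ := fun k u hu => by
        have h1 := h.phi_le hC k hu
        have h2 := mul_nonneg hε.le (norm_nonneg u)
        linarith
      sc := fun k u hu => by
        have h1 := h.phi_le hC k hu
        have h2 := h.disp_le hC k u
        have h3 : ‖cV δ d' θ G (K k) u‖ ≤ ‖cV δ d' θ G (K k) u - phiV (K k) u‖ +
            ‖phiV (K k) u‖ := by
          have := norm_add_le (cV δ d' θ G (K k) u - phiV (K k) u) (phiV (K k) u)
          rwa [sub_add_cancel] at this
        linarith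
      dc := fun k u => by
        have h2 := h.disp_le hC k u
        have h3 := mul_nonneg hε.le (norm_nonneg u)
        linarith
      sep := fun k l hkl u hu hs => by
        have hn : 0 < ‖u‖ := norm_pos_iff.mpr hu
        have h1 := h.sep' (s := 2 * d) (by linarith) hkl (u := u) (by
          have := mul_nonneg h.hκ0.le hn.le
          linarith)
        have h2 : 16 * ε₁ * ‖u‖ ≤ κ * ‖u‖ := mul_le_mul_of_nonneg_right e4 hn.le
        have h3 : 0 < ε₁ * ‖u‖ := mul_pos hε₁ hn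
        linarith }

/-- **Stage S4** in the scales of block B3. -/
theorem ScalesB3.stage4 (h : ScalesB3 K C G δ ε θ d d' κ ε₁ M s₀) (hC : C4 K ≤ C) :
    VEq (kF K δ (2 * ε) M (2 * d) (2 * ε₁) 1 fun k => cV δ d' θ G (K k))
      (kF K δ (2 * ε) M (2 * d) (2 * ε₁) 0 fun k => cV δ d' θ G (K k)) :=
  (h.s4Hyp hC).veq

end Vale.Agent.P268.T.K372
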