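import Vale.Agent.P268.T.K372.BIm
import Vale.Agent.P268.T.K372.Scales

/-!
# P268, topological half, block B3, stage S4

The fat centres `a φ_K`, `a : 1 → 0`, behind a fixed front `s osc u - max u`, `s` small:
`VEq (kF K δ ρ M s r 1 c) (kF K δ ρ M s r 0 c)`, `c k = cV δ d' θ G (K k)`.

At a zero one direction suffices: `(-1, -λ w₀)` if a thin sheet is active, `(-1, -λ v₀)` otherwise.
-/

set_option linter.unusedSectionVars false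
set_option linter.unusedVariables false

namespace Vale.Agent.P268.T.K372

open Set Filter Topology
open scoped RealInnerProductSpace
open Vale.Agent.P268.T

section general

variable {T : Type*} [TopologicalSpace T] {S : Type*} [NormedAddCommGroup S] [NormedSpace ℝ S]
  {V : Type*} [NormedAddCommGroup V] [InnerProductSpace ℝ V] {s : Set T} {t₀ : T}

theorem loInc_norm {ρ : ℝ} (hρ : 0 ≤ ρ) (u₀ a : S) :
    LoInc (-(ρ * ‖a‖)) s (fun (_ : T) (u : S) => ρ * ‖u‖) t₀ u₀ a := by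
  refine ⟨univ, univ_mem, Eventually.of_forall fun _ u _ τ hτ _ => ?_⟩
  have h1 := norm_sub_norm_le u (-(τ • a))
  have h2 : ‖u‖ ≤ ‖u + τ • a‖ + ‖τ • a‖ := by
    have := norm_sub_le (u + τ • a) (τ • a)
    rwa [add_sub_cancel_right] at this
  rw [norm_smul, Real.norm_eq_abs, abs_of_pos hτ] at h2
  have h3 := mul_le_mul_of_nonneg_left h2 hρ
  linarith

theorem vInc_of_lip {c : T → S → V} {L : ℝ} {u₀ : S} (a : S)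
    (h : ∀ᶠ t in 𝓝[s] t₀, ∀ u v, ‖c t u - c t v‖ ≤ L * ‖u - v‖) :
    VInc (L * ‖a‖) s c t₀ u₀ a 0 := by
  refine ⟨univ, univ_mem, h.mono fun t ht u _ τ hτ _ => ?_⟩
  have h1 := ht (u + τ • a) u
  rw [add_sub_cancel_left, norm_smul, Real.norm_eq_abs, abs_of_pos hτ] at h1
  rw [smul_zero, sub_zero]
  linarith

theorem locLip_of_lip {W : Type*} [NormedAddCommGroup W] {c : T → S → W} {L : ℝ} {u₀ : S}
    (h : ∀ᶠ t in 𝓝[s] t₀, ∀ u v, ‖c t u - c t v‖ ≤ L * ‖u - v‖) : LocLip s c t₀ u₀ :=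
  ⟨L, univ, univ_mem, h.mono fun t ht u _ v _ => ht u v⟩

end general

variable {ι σ : Type} [Fintype ι] [Nonempty ι] [Fintype σ] [Nonempty σ]

/-- `∑ j, K j`. -/
noncomputable def kS (K : ι → ℕ) : ℝ := ∑ j, (K j : ℝ)

theorem kS_nonneg (K : ι → ℕ) : 0 ≤ kS K := Finset.sum_nonneg fun _ _ => Nat.cast_nonneg _

theorem le_kS (K : ι → ℕ) (j : ι) : (K j : ℝ) ≤ kS K :=
  Finset.single_le_sum (f := fun i => (K i : ℝ)) (fun _ _ => Nat.cast_nonneg _)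
    (Finset.mem_univ j)

theorem lip_phiV (K : ι → ℕ) (u v : EuclideanSpace ℝ ι) :
    ‖phiV K u - phiV K v‖ ≤ kS K * ‖u - v‖ := norm_phiV_sub_le K (le_kS K) (kS_nonneg K) u v

/-- Lipschitz constant of the sheet. -/
noncomputable def lipS (δ d θ : ℝ) (G : (ι → ℕ) → ℝ) (K : ι → ℕ) : ℝ :=
  kS K + |θ * G K| * lipEta ι δ d

theorem lip_cV {δ d θ : ℝ} (hδ : 0 ≤ δ) (hd : 0 ≤ d) (G : (ι → ℕ) → ℝ) (K : ι → ℕ)
    (u v : EuclideanSpace ℝ ι) :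
    ‖cV δ d θ G K u - cV δ d θ G K v‖ ≤ lipS δ d θ G K * ‖u - v‖ :=
  norm_cV_sub_le hδ hd θ G K (le_kS K) (kS_nonneg K) u v

theorem lipS_nonneg {δ d θ : ℝ} (hδ : 0 ≤ δ) (hd : 0 ≤ d) (G : (ι → ℕ) → ℝ) (K : ι → ℕ) :
    0 ≤ lipS δ d θ G K :=
  add_nonneg (kS_nonneg K) (mul_nonneg (abs_nonneg _) (lipEta_nonneg hδ hd))

theorem loInc_fr {T : Type*} [TopologicalSpace T] {s : Set T} {t₀ : T} (M c : ℝ)
    (u₀ : EuclideanSpace ℝ ι) :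
    LoInc M s (fun (_ : T) (u : EuclideanSpace ℝ ι) => frV M c 0 u) t₀ u₀ (-oneV ι) := by
  refine ⟨univ, univ_mem, Eventually.of_forall fun _ u _ τ _ _ => ?_⟩
  have e : u + τ • (-oneV ι) = u - τ • oneV ι := by rw [smul_neg, sub_eq_add_neg]
  show M * τ ≤ frV M c 0 (u + τ • (-oneV ι)) - frV M c 0 u
  rw [e, frV_sub_one]
  linarith

/-- The front function as a piece. -/
theorem piece_fr {T : Type*} [TopologicalSpace T] {s : Set T} {t₀ : T} {M c : ℝ} (hM : 0 < M)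
    (hc : 0 ≤ c) (u₀ v₀ b ν : EuclideanSpace ℝ ι) :
    Piece s t₀ ((u₀, v₀) : EuclideanSpace ℝ ι × EuclideanSpace ℝ ι) (-oneV ι, b) (0, ν)
      (fun (_ : T) x => frV M c 0 x.1) := by
  refine Piece.base hM (loInc_fr M c u₀) ?_
  refine locLip_of_lip (L := M * (2 * c + 1) + 0) (Eventually.of_forall fun _ u v => ?_)
  rw [Real.norm_eq_abs]
  exact abs_frV_sub_le hM.le hc le_rfl u v

/-- A sheet of radius `ρ ‖u‖` as a piece, along `(-1, b)`. -/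
theorem piece_sh {T : Type*} [TopologicalSpace T] {s : Set T} {t₀ : T} {ρ L κw : ℝ} (hρ : 0 ≤ ρ)
    {c : T → EuclideanSpace ℝ ι → EuclideanSpace ℝ ι} {u₀ v₀ b ν : EuclideanSpace ℝ ι}
    (bc : BAt s c t₀ u₀) (hlip : ∀ᶠ t in 𝓝[s] t₀, ∀ u v, ‖c t u - c t v‖ ≤ L * ‖u - v‖)
    (hw0 : v₀ - c t₀ u₀ ≠ 0) (hν0 : ν ≠ 0) (hperp : ⟪v₀ - c t₀ u₀, ν⟫ = 0)
    (hb : κw * ‖v₀ - c t₀ u₀‖ < -⟪v₀ - c t₀ u₀, b⟫) (hpos : (ρ + L) * ‖oneV ι‖ < κw) :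
    Piece s t₀ ((u₀, v₀) : EuclideanSpace ℝ ι × EuclideanSpace ℝ ι) (-oneV ι, b) (0, ν)
      (shH (fun (_ : T) (u : EuclideanSpace ℝ ι) => ρ * ‖u‖) c) := by
  have h1 := Piece.sheet (s := s) (t₀ := t₀) (E := fun (_ : T) (u : EuclideanSpace ℝ ι) => ρ * ‖u‖)
    (c := c) (u₀ := u₀) (a := -oneV ι) (v₀ := v₀) (b := b) (c' := 0) (ν := ν)
    (κE := -(ρ * ‖-oneV ι‖)) (κw := κw) (L := L * ‖-oneV ι‖)
    (loInc_norm hρ u₀ _) (vInc_of_lip _ hlip) bc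
    (NormDec.of_inner (by rw [sub_zero]; exact hb))
    (by rw [norm_neg]; linarith)
    (locLip_of_lip (L := ρ) (Eventually.of_forall fun _ u v => by
      rw [Real.norm_eq_abs, ← mul_sub, abs_mul, abs_of_nonneg hρ]
      exact mul_le_mul_of_nonneg_left (abs_norm_sub_norm_le u v) hρ))
    (locLip_of_lip hlip) hw0 hν0 hperp
  exact h1

/-- The hypotheses of stage S4 (front `s`, fat radius `ρ`, thin radius `r`). -/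
structure S4Hyp (K : σ → ι → ℕ) (δ d' θ : ℝ) (G : (ι → ℕ) → ℝ) (ρ M s r : ℝ) : Prop where
  hδ0 : 0 < δ
  hδ : Fintype.card ι * δ ^ 2 < 1
  hd' : 0 ≤ d'
  hρ : 0 < ρ
  hρδ : 8 * ρ ≤ δ
  hM : 0 < M
  hs : 0 ≤ s
  hsδ : 2 * s ≤ δ
  hr : 0 < r
  hrρ : 4 * r ≤ ρ
  /-- behind the front all centres are small -/
  sφ : ∀ k, ∀ u, mxV u ≤ s * oscV u → ‖phiV (K k) u‖ ≤ ρ / 4 * ‖u‖
  sc : ∀ k, ∀ u, mxV u ≤ s * oscV u → ‖cV δ d' θ G (K k) u‖ ≤ ρ / 4 * ‖u‖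
  /-- the displacement is small -/
  dc : ∀ k, ∀ u, ‖cV δ d' θ G (K k) u - phiV (K k) u‖ ≤ ρ / 4 * ‖u‖
  /-- the thin sheets are separated at and beyond the front -/
  sep : ∀ k l, k ≠ l → ∀ u, u ≠ 0 → s * oscV u ≤ mxV u →
    2 * r * ‖u‖ < ‖cV δ d' θ G (K k) u - cV δ d' θ G (K l) u‖

variable {K : σ → ι → ℕ} {δ d' θ ρ M s r : ℝ} {G : (ι → ℕ) → ℝ}

theorem frV_zero_iff (M s : ℝ) (u : EuclideanSpace ℝ ι) :
    frV M s 0 u = M * (s * oscV u - mxV u) := by unfold frV; ring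

/-! ### Geometry at a zero -/

/-- The fat part is positive near the origin of the fibre, behind the front. -/
theorem S4Hyp.fat_pos (h : S4Hyp K δ d' θ G ρ M s r) {t₀ : ℝ} (ht0 : 0 ≤ t₀) (ht1 : t₀ ≤ 1)
    {u₀ v₀ : EuclideanSpace ℝ ι} (hu : u₀ ≠ 0) (hf : 0 ≤ frV M s 0 u₀)
    (hv : ‖v₀‖ ≤ ρ / 2 * ‖u₀‖) :
    0 < shSup (fun (_ : ℝ) (u : EuclideanSpace ℝ ι) => ρ * ‖u‖)
      (fun k (t : ℝ) u => t • phiV (K k) u) t₀ (u₀, v₀) := by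
  have hn : 0 < ‖u₀‖ := norm_pos_iff.mpr hu
  have hρ := h.hρ
  obtain ⟨k⟩ := (inferInstance : Nonempty σ)
  have h1 := h.sφ k u₀ (mxV_le_of_frV h.hM hf)
  have h2 : ρ * ‖u₀‖ - ‖v₀ - t₀ • phiV (K k) u₀‖ ≤
      shSup (fun (_ : ℝ) (u : EuclideanSpace ℝ ι) => ρ * ‖u‖)
      (fun k (t : ℝ) u => t • phiV (K k) u) t₀ (u₀, v₀) :=
    le_shSup (fun (_ : ℝ) (u : EuclideanSpace ℝ ι) => ρ * ‖u‖)
      (fun k (t : ℝ) u => t • phiV (K k) u) t₀ (u₀, v₀) k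
  have h3 : ‖v₀ - t₀ • phiV (K k) u₀‖ ≤ ‖v₀‖ + ‖phiV (K k) u₀‖ := by
    refine (norm_sub_le _ _).trans ?_
    rw [norm_smul, Real.norm_eq_abs, abs_of_nonneg ht0]
    have := norm_nonneg (phiV (K k) u₀)
    nlinarith
  have h4 : 0 < ρ * ‖u₀‖ := by positivity
  linarith

theorem S4Hyp.flat (h : S4Hyp K δ d' θ G ρ M s r) {u₀ : EuclideanSpace ℝ ι}
    (hmx : mxV u₀ ≤ s * oscV u₀) (j : ι) : u₀ j ≤ δ * ‖u₀‖ := by
  have h1 := le_of_mx_le_osc h.hs hmx j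
  have h2 := mul_le_mul_of_nonneg_right h.hsδ (norm_nonneg u₀)
  linarith

/-- Facts at an active thin sheet. -/
theorem S4Hyp.thin (h : S4Hyp K δ d' θ G ρ M s r) {t₀ : ℝ} (ht0 : 0 ≤ t₀) (ht1 : t₀ ≤ 1)
    {u₀ v₀ : EuclideanSpace ℝ ι} (hu : u₀ ≠ 0)
    (hmin : min (shSup (fun (_ : ℝ) (u : EuclideanSpace ℝ ι) => ρ * ‖u‖)
      (fun k (t : ℝ) u => t • phiV (K k) u) t₀ (u₀, v₀)) (frV M s 0 u₀) ≤ 0) {k₀ : σ}
    (hk₀ : r * ‖u₀‖ - ‖v₀ - cV δ d' θ G (K k₀) u₀‖ = 0) :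
    (0 ≤ frV M s 0 u₀ → 0 < shSup (fun (_ : ℝ) (u : EuclideanSpace ℝ ι) => ρ * ‖u‖)
      (fun k (t : ℝ) u => t • phiV (K k) u) t₀ (u₀, v₀)) ∧
    (∀ l, r * ‖u₀‖ - ‖v₀ - cV δ d' θ G (K l) u₀‖ = 0 → l = k₀) ∧
    ‖v₀ - phiV (K k₀) u₀‖ < δ / 4 * ‖u₀‖ := by
  have hn : 0 < ‖u₀‖ := norm_pos_iff.mpr hu
  have hρ := h.hρ
  have hM := h.hM
  have hrρ := h.hrρ
  have hwn : ‖v₀ - cV δ d' θ G (K k₀) u₀‖ = r * ‖u₀‖ := by linarith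
  have hv_of : mxV u₀ ≤ s * oscV u₀ → ‖v₀‖ ≤ ρ / 2 * ‖u₀‖ := fun hmx => by
    have h1 := h.sc k₀ u₀ hmx
    have h2 : ‖v₀‖ ≤ ‖v₀ - cV δ d' θ G (K k₀) u₀‖ + ‖cV δ d' θ G (K k₀) u₀‖ := by
      have := norm_add_le (v₀ - cV δ d' θ G (K k₀) u₀) (cV δ d' θ G (K k₀) u₀)
      rwa [sub_add_cancel] at this
    have h3 := mul_le_mul_of_nonneg_right hrρ hn.le
    linarith
  have hA₁pos := fun hf : 0 ≤ frV M s 0 u₀ =>
    h.fat_pos ht0 ht1 hu hf (hv_of (mxV_le_of_frV hM hf))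
  have hf0 : frV M s 0 u₀ ≤ 0 := by
    by_contra hc
    have hc' : 0 < frV M s 0 u₀ := not_le.mp hc
    have h2 := lt_min (hA₁pos hc'.le) hc'
    linarith
  have hsosc : s * oscV u₀ ≤ mxV u₀ := by
    rw [frV_zero_iff] at hf0
    by_contra hc
    have : 0 < M * (s * oscV u₀ - mxV u₀) := mul_pos hM (by linarith [not_le.mp hc])
    linarith
  refine ⟨hA₁pos, fun l hl => ?_, ?_⟩
  · by_contra hne
    have h1 := h.sep l k₀ hne u₀ hu hsosc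
    have h2 : ‖cV δ d' θ G (K l) u₀ - cV δ d' θ G (K k₀) u₀‖ ≤
        ‖v₀ - cV δ d' θ G (K k₀) u₀‖ + ‖v₀ - cV δ d' θ G (K l) u₀‖ := by
      have e : cV δ d' θ G (K l) u₀ - cV δ d' θ G (K k₀) u₀ =
        (v₀ - cV δ d' θ G (K k₀) u₀) - (v₀ - cV δ d' θ G (K l) u₀) := by abel
      rw [e]; exact norm_sub_le _ _
    linarith
  · have h1 := h.dc k₀ u₀
    have h2 : ‖v₀ - phiV (K k₀) u₀‖ ≤ ‖v₀ - cV δ d' θ G (K k₀) u₀‖ +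
        ‖cV δ d' θ G (K k₀) u₀ - phiV (K k₀) u₀‖ := by
      have := norm_add_le (v₀ - cV δ d' θ G (K k₀) u₀)
        (cV δ d' θ G (K k₀) u₀ - phiV (K k₀) u₀)
      rwa [sub_add_sub_cancel] at this
    have h3 := mul_le_mul_of_nonneg_right hrρ hn.le
    have h4 := mul_le_mul_of_nonneg_right h.hρδ hn.le
    have h5 : 0 < ρ * ‖u₀‖ := by positivity
    linarith

/-- Facts at a zero where no thin sheet is active. -/
theorem S4Hyp.fat (h : S4Hyp K δ d' θ G ρ M s r) {t₀ : ℝ} (ht0 : 0 ≤ t₀) (ht1 : t₀ ≤ 1)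
    {u₀ v₀ : EuclideanSpace ℝ ι} (hu : u₀ ≠ 0)
    (hf0 : 0 ≤ frV M s 0 u₀)
    (hA : 0 ≤ shSup (fun (_ : ℝ) (u : EuclideanSpace ℝ ι) => ρ * ‖u‖)
      (fun k (t : ℝ) u => t • phiV (K k) u) t₀ (u₀, v₀)) (hβ : bIm δ (u₀, v₀) = 0) :
    (∀ k, ‖t₀ • phiV (K k) u₀‖ ≤ ρ / 4 * ‖u₀‖) ∧
    (∀ k, ‖v₀ - phiV (K k) u₀‖ < δ / 4 * ‖u₀‖) ∧
    ⟪v₀, nuV δ u₀⟫ = 0 ∧ ∀ k, ⟪phiV (K k) u₀, nuV δ u₀⟫ = 0 := by
  have hn : 0 < ‖u₀‖ := norm_pos_iff.mpr hu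
  have hρ := h.hρ
  have hmx := mxV_le_of_frV h.hM hf0
  have hφs : ∀ k, ‖t₀ • phiV (K k) u₀‖ ≤ ρ / 4 * ‖u₀‖ := fun k => by
    rw [norm_smul, Real.norm_eq_abs, abs_of_nonneg ht0]
    have h1 := h.sφ k u₀ hmx
    have h2 := norm_nonneg (phiV (K k) u₀)
    nlinarith
  have hv : ‖v₀‖ ≤ 5 / 4 * ρ * ‖u₀‖ := by
    obtain ⟨k, hk⟩ := exists_shSup (fun (_ : ℝ) (u : EuclideanSpace ℝ ι) => ρ * ‖u‖)
      (fun k (t : ℝ) u => t • phiV (K k) u) t₀ (u₀, v₀)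
    have h1 : 0 ≤ ρ * ‖u₀‖ - ‖v₀ - t₀ • phiV (K k) u₀‖ := by
      rw [← hk] at hA; exact hA
    have h2 : ‖v₀‖ ≤ ‖v₀ - t₀ • phiV (K k) u₀‖ + ‖t₀ • phiV (K k) u₀‖ := by
      have := norm_add_le (v₀ - t₀ • phiV (K k) u₀) (t₀ • phiV (K k) u₀)
      rwa [sub_add_cancel] at this
    have h3 := hφs k
    linarith
  have h8 := mul_le_mul_of_nonneg_right h.hρδ hn.le
  have hρn : 0 < ρ * ‖u₀‖ := by positivity
  refine ⟨hφs, fun k => ?_, ?_, fun k => inner_phiV_nuV_eq_zero h.hδ0.le (K k) (h.flat hmx)⟩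
  · have h1 := h.sφ k u₀ hmx
    have h2 := norm_sub_le v₀ (phiV (K k) u₀)
    linarith
  · have h1 : bIm δ (u₀, v₀) = ⟪v₀, nuV δ u₀⟫ :=
      bIm_flat h.hδ0.le (h.flat hmx) (by linarith)
    rw [← h1]; exact hβ

/-! ### The direction at a zero -/

theorem S4Hyp.bφ (K : σ → ι → ℕ) (t₀ : ℝ) (u₀ : EuclideanSpace ℝ ι) (k : σ) :
    BAt (Icc (0 : ℝ) 1) (fun (t : ℝ) u => t • phiV (K k) u) t₀ u₀ :=
  (continuous_fst.smul ((continuous_phiV (K k)).comp continuous_snd)).continuousWithinAt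

theorem S4Hyp.bc (h : S4Hyp K δ d' θ G ρ M s r) (t₀ : ℝ) (u₀ : EuclideanSpace ℝ ι) (k : σ) :
    BAt (Icc (0 : ℝ) 1) (fun (_ : ℝ) u => cV δ d' θ G (K k) u) t₀ u₀ :=
  ((continuous_cV h.hδ0.le h.hd' θ G (K k)).comp continuous_snd).continuousWithinAt

theorem bE (ρ : ℝ) (t₀ : ℝ) (u₀ : EuclideanSpace ℝ ι) :
    BAt (Icc (0 : ℝ) 1) (fun (_ : ℝ) (u : EuclideanSpace ℝ ι) => ρ * ‖u‖) t₀ u₀ :=
  (continuous_const.mul (continuous_norm.comp continuous_snd)).continuousWithinAt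

theorem continuous_fr (M s : ℝ) :
    Continuous fun p : ℝ × EuclideanSpace ℝ ι => frV M s 0 p.2 :=
  (continuous_frV M).comp (f := fun p : ℝ × EuclideanSpace ℝ ι => ((s, (0 : ℝ)), p.2))
    (continuous_const.prodMk continuous_snd)

theorem bfr (M s : ℝ) (t₀ : ℝ) (u₀ : EuclideanSpace ℝ ι) :
    BAt (Icc (0 : ℝ) 1) (fun (_ : ℝ) (u : EuclideanSpace ℝ ι) => frV M s 0 u) t₀ u₀ :=
  (continuous_fr M s).continuousWithinAt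

theorem S4Hyp.dir_thin (h : S4Hyp K δ d' θ G ρ M s r) {t₀ : ℝ} (ht0 : 0 ≤ t₀) (ht1 : t₀ ≤ 1)
    {u₀ v₀ : EuclideanSpace ℝ ι} (hu : u₀ ≠ 0) (hβ : bIm δ (u₀, v₀) = 0)
    (h0 : kre (fun k (t : ℝ) u => t • phiV (K k) u)
      (fun k (_ : ℝ) u => cV δ d' θ G (K k) u) (fun (_ : ℝ) u => ρ * ‖u‖)
      (fun (_ : ℝ) u => r * ‖u‖) (fun (_ : ℝ) u => frV M s 0 u) t₀ (u₀, v₀) = 0) {k₀ : σ}
    (hk₀ : r * ‖u₀‖ - ‖v₀ - cV δ d' θ G (K k₀) u₀‖ = 0) :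
    ∃ e, Piece (Icc (0 : ℝ) 1) t₀ (u₀, v₀) e (0, nuV δ u₀)
      (kre (fun k (t : ℝ) u => t • phiV (K k) u)
      (fun k (_ : ℝ) u => cV δ d' θ G (K k) u) (fun (_ : ℝ) u => ρ * ‖u‖)
      (fun (_ : ℝ) u => r * ‖u‖) (fun (_ : ℝ) u => frV M s 0 u)) := by
  have hn : 0 < ‖u₀‖ := norm_pos_iff.mpr hu
  have hr := h.hr
  have hmin0 : min (shSup (fun (_ : ℝ) (u : EuclideanSpace ℝ ι) => ρ * ‖u‖)
      (fun k (t : ℝ) u => t • phiV (K k) u) t₀ (u₀, v₀)) (frV M s 0 u₀) ≤ 0 :=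
    (le_max_left _ _).trans h0.le
  obtain ⟨hA, huniq, hclose⟩ := h.thin ht0 ht1 hu hmin0 hk₀
  have hwn : ‖v₀ - cV δ d' θ G (K k₀) u₀‖ = r * ‖u₀‖ := by linarith
  have hw0pos : 0 < ‖v₀ - cV δ d' θ G (K k₀) u₀‖ := by rw [hwn]; positivity
  have hperp : ⟪v₀ - cV δ d' θ G (K k₀) u₀, nuV δ u₀⟫ = 0 := by
    have h1 : bIm δ (u₀, v₀) = ⟪v₀ - cV δ d' θ G (K k₀) u₀, nuV δ u₀⟫ :=
      bIm_eq_cV h.hδ0.le hclose.le
    rw [← h1]; exact hβ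
  obtain ⟨L, hL⟩ : ∃ L : ℝ, L = lipS δ d' θ G (K k₀) := ⟨_, rfl⟩
  obtain ⟨κw, hκw⟩ : ∃ κw : ℝ, κw = (r + L) * ‖oneV ι‖ + 1 := ⟨_, rfl⟩
  obtain ⟨lam, hlam⟩ : ∃ lam : ℝ, lam * ‖v₀ - cV δ d' θ G (K k₀) u₀‖ = κw + 1 :=
    ⟨(κw + 1) / ‖v₀ - cV δ d' θ G (K k₀) u₀‖, by field_simp⟩
  refine ⟨(-oneV ι, -(lam • (v₀ - cV δ d' θ G (K k₀) u₀))),
    piece_kre (S4Hyp.bφ K t₀ u₀) (h.bc t₀ u₀) (bE ρ t₀ u₀) (bE r t₀ u₀) (bfr M s t₀ u₀) h0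
      (fun k hf hS _ => ?_) (fun _ _ => piece_fr h.hM h.hs u₀ v₀ _ _) (fun k _ hk => ?_)⟩
  · exfalso
    have h1 := hA hf
    rw [hS] at h1
    exact lt_irrefl _ h1
  · have hk' : k = k₀ := huniq k hk
    subst hk'
    refine piece_sh (κw := κw) (L := L) hr.le (h.bc t₀ u₀ k)
      (Eventually.of_forall fun _ u v => by rw [hL]; exact lip_cV h.hδ0.le h.hd' G (K k) u v)
      (norm_pos_iff.mp hw0pos) (nuV_ne_zero h.hδ0.le h.hδ hu) hperp ?_ (by rw [hκw]; linarith)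
    show κw * ‖v₀ - cV δ d' θ G (K k) u₀‖ <
      -⟪v₀ - cV δ d' θ G (K k) u₀, -(lam • (v₀ - cV δ d' θ G (K k) u₀))⟫
    rw [inner_neg_right, neg_neg, inner_smul_right, real_inner_self_eq_norm_sq, sq, ← mul_assoc,
      hlam]
    exact mul_lt_mul_of_pos_right (by linarith) hw0pos

theorem S4Hyp.dir_fat (h : S4Hyp K δ d' θ G ρ M s r) {t₀ : ℝ} (ht0 : 0 ≤ t₀) (ht1 : t₀ ≤ 1)
    {u₀ v₀ : EuclideanSpace ℝ ι} (hu : u₀ ≠ 0)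
    (h0 : kre (fun k (t : ℝ) u => t • phiV (K k) u)
      (fun k (_ : ℝ) u => cV δ d' θ G (K k) u) (fun (_ : ℝ) u => ρ * ‖u‖)
      (fun (_ : ℝ) u => r * ‖u‖) (fun (_ : ℝ) u => frV M s 0 u) t₀ (u₀, v₀) = 0)
    (hact : ∀ k, r * ‖u₀‖ - ‖v₀ - cV δ d' θ G (K k) u₀‖ ≠ 0)
    (hφs : ∀ k, ‖t₀ • phiV (K k) u₀‖ ≤ ρ / 4 * ‖u₀‖) (hvperp : ⟪v₀, nuV δ u₀⟫ = 0)
    (hφperp : ∀ k, ⟪phiV (K k) u₀, nuV δ u₀⟫ = 0) :
    ∃ e, Piece (Icc (0 : ℝ) 1) t₀ (u₀, v₀) e (0, nuV δ u₀)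
      (kre (fun k (t : ℝ) u => t • phiV (K k) u)
      (fun k (_ : ℝ) u => cV δ d' θ G (K k) u) (fun (_ : ℝ) u => ρ * ‖u‖)
      (fun (_ : ℝ) u => r * ‖u‖) (fun (_ : ℝ) u => frV M s 0 u)) := by
  have hn : 0 < ‖u₀‖ := norm_pos_iff.mpr hu
  have hρ := h.hρ
  have hρn : 0 < ρ * ‖u₀‖ := by positivity
  obtain ⟨P, hPk⟩ : ∃ P : ℝ, ∀ k, kS (K k) ≤ P := ⟨∑ k, kS (K k), fun k =>
    Finset.single_le_sum (f := fun k => kS (K k)) (fun k _ => kS_nonneg _) (Finset.mem_univ k)⟩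
  have hlip : ∀ k, ∀ᶠ t in 𝓝[Icc (0 : ℝ) 1] t₀, ∀ u v,
      ‖t • phiV (K k) u - t • phiV (K k) v‖ ≤ P * ‖u - v‖ := fun k => by
    filter_upwards [self_mem_nhdsWithin] with t ht u v
    rw [← smul_sub, norm_smul, Real.norm_eq_abs, abs_of_nonneg ht.1]
    have h1 := lip_phiV (K k) u v
    have h2 := mul_le_mul_of_nonneg_right (hPk k) (norm_nonneg (u - v))
    have h3 := norm_nonneg (phiV (K k) u - phiV (K k) v)
    have h4 : t * ‖phiV (K k) u - phiV (K k) v‖ ≤ 1 * ‖phiV (K k) u - phiV (K k) v‖ :=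
      mul_le_mul_of_nonneg_right ht.2 h3
    linarith
  obtain ⟨κw, hκw⟩ : ∃ κw : ℝ, κw = |(ρ + P) * ‖oneV ι‖| + 1 := ⟨_, rfl⟩
  have hκw0 : 0 < κw := by rw [hκw]; positivity
  obtain ⟨lam, hlam0, hlam⟩ : ∃ lam : ℝ, 0 < lam ∧ lam * (3 / 4 * (ρ * ‖u₀‖)) = κw + 1 :=
    ⟨(κw + 1) / (3 / 4 * (ρ * ‖u₀‖)), by positivity, by field_simp⟩
  refine ⟨(-oneV ι, -(lam • v₀)),
    piece_kre (S4Hyp.bφ K t₀ u₀) (h.bc t₀ u₀) (bE ρ t₀ u₀) (bE r t₀ u₀) (bfr M s t₀ u₀) h0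
      (fun k _ _ hk => ?_) (fun _ _ => piece_fr h.hM h.hs u₀ v₀ _ _)
      (fun k _ hk => absurd hk (hact k))⟩
  have hk' : ρ * ‖u₀‖ - ‖v₀ - t₀ • phiV (K k) u₀‖ = 0 := hk
  have hwn : ‖v₀ - t₀ • phiV (K k) u₀‖ = ρ * ‖u₀‖ := by linarith
  have hw0pos : 0 < ‖v₀ - t₀ • phiV (K k) u₀‖ := by rw [hwn]; exact hρn
  have hperp : ⟪v₀ - t₀ • phiV (K k) u₀, nuV δ u₀⟫ = 0 := by
    rw [inner_sub_left, inner_smul_left, hvperp, hφperp]; simp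
  refine piece_sh (κw := κw) (L := P) hρ.le (S4Hyp.bφ K t₀ u₀ k) (hlip k)
    (norm_pos_iff.mp hw0pos) (nuV_ne_zero h.hδ0.le h.hδ hu) hperp ?_
    (by rw [hκw]; linarith [le_abs_self ((ρ + P) * ‖oneV ι‖)])
  show κw * ‖v₀ - t₀ • phiV (K k) u₀‖ < -⟪v₀ - t₀ • phiV (K k) u₀, -(lam • v₀)⟫
  rw [inner_neg_right, neg_neg, inner_smul_right]
  have h1 : 3 / 4 * (ρ * ‖u₀‖) * ‖v₀ - t₀ • phiV (K k) u₀‖ ≤
      ⟪v₀ - t₀ • phiV (K k) u₀, v₀⟫ := by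
    have h2 : ⟪v₀ - t₀ • phiV (K k) u₀, v₀⟫ = ‖v₀ - t₀ • phiV (K k) u₀‖ ^ 2 +
        ⟪v₀ - t₀ • phiV (K k) u₀, t₀ • phiV (K k) u₀⟫ := by
      rw [← real_inner_self_eq_norm_sq, ← inner_add_right, sub_add_cancel]
    have h3 := abs_real_inner_le_norm (v₀ - t₀ • phiV (K k) u₀) (t₀ • phiV (K k) u₀)
    have h4 := mul_le_mul_of_nonneg_left (hφs k) hw0pos.le
    have h5 := (abs_le.mp (h3.trans h4)).1
    rw [h2, sq]
    nlinarith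
  have h2 : lam * (3 / 4 * (ρ * ‖u₀‖) * ‖v₀ - t₀ • phiV (K k) u₀‖) ≤
      lam * ⟪v₀ - t₀ • phiV (K k) u₀, v₀⟫ := mul_le_mul_of_nonneg_left h1 hlam0.le
  have h3 : lam * (3 / 4 * (ρ * ‖u₀‖) * ‖v₀ - t₀ • phiV (K k) u₀‖) =
      (κw + 1) * ‖v₀ - t₀ • phiV (K k) u₀‖ := by
    rw [← mul_assoc, hlam]
  have h4 : κw * ‖v₀ - t₀ • phiV (K k) u₀‖ < (κw + 1) * ‖v₀ - t₀ • phiV (K k) u₀‖ :=
    mul_lt_mul_of_pos_right (by linarith) hw0pos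
  linarith

/-- **Stage S4**, as a family of class `R`. -/
theorem S4Hyp.kSys (h : S4Hyp K δ d' θ G ρ M s r) :
    KSys (Icc (0 : ℝ) 1) (fun k (t : ℝ) u => t • phiV (K k) u)
      (fun k (_ : ℝ) u => cV δ d' θ G (K k) u) (fun (_ : ℝ) u => ρ * ‖u‖)
      (fun (_ : ℝ) u => r * ‖u‖) (fun (_ : ℝ) u => frV M s 0 u) (nuV δ)
      (fun (_ : ℝ) x => bIm δ x) where
  cφ := fun k => (continuous_fst.smul ((continuous_phiV (K k)).comp continuous_snd)).continuousOn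
  cc := fun k => ((continuous_cV h.hδ0.le h.hd' θ G (K k)).comp continuous_snd).continuousOn
  cE₁ := (continuous_const.mul (continuous_norm.comp continuous_snd)).continuousOn
  cE₂ := (continuous_const.mul (continuous_norm.comp continuous_snd)).continuousOn
  cf := (continuous_fr M s).continuousOn
  cβ := ((continuous_bIm h.hδ0.le).comp continuous_snd).continuousOn
  hφ := fun k t _ q hq u => by rw [phiV_smul (K k) hq, smul_comm]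
  hc := fun k _ _ q hq u => cV_smul δ d' θ G (K k) hq u
  hE₁ := fun _ _ q hq u => by rw [norm_smul, Real.norm_eq_abs, abs_of_nonneg hq]; ring
  hE₂ := fun _ _ q hq u => by rw [norm_smul, Real.norm_eq_abs, abs_of_nonneg hq]; ring
  hf := fun _ _ q hq u => frV_smul M s 0 hq u
  hβ := fun _ _ q hq x => bIm_smul hq x
  cν := fun u₀ hu => continuousAt_nuV δ hu
  lν := fun t₀ _ u₀ hu => locLip_nuV h.hδ0.le hu
  ν0 := fun u₀ hu => nuV_ne_zero h.hδ0.le h.hδ hu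
  zero := by
    rintro t₀ ht₀ ⟨u₀, v₀⟩ hu h0 hβ
    have hu' : u₀ ≠ 0 := hu
    have hβ' : bIm δ (u₀, v₀) = 0 := hβ
    by_cases hact : ∃ k, r * ‖u₀‖ - ‖v₀ - cV δ d' θ G (K k) u₀‖ = 0
    · obtain ⟨k₀, hk₀⟩ := hact
      have hmin0 : min (shSup (fun (_ : ℝ) (u : EuclideanSpace ℝ ι) => ρ * ‖u‖)
        (fun k (t : ℝ) u => t • phiV (K k) u) t₀ (u₀, v₀)) (frV M s 0 u₀) ≤ 0 :=
        (le_max_left _ _).trans h0.le
      obtain ⟨-, -, hclose⟩ := h.thin ht₀.1 ht₀.2 hu' hmin0 hk₀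
      exact ⟨h.dir_thin ht₀.1 ht₀.2 hu' hβ' h0 hk₀,
        fun _ u => cV δ d' θ G (K k₀) u, locLip_cV h.hδ0.le h.hd' G (K k₀) u₀, h.bc t₀ u₀ k₀,
        bIm_eventually h.hδ0.le hclose⟩
    · have hact' : ∀ k, r * ‖u₀‖ - ‖v₀ - cV δ d' θ G (K k) u₀‖ ≠ 0 := fun k hk => hact ⟨k, hk⟩
      have hA₂ne : shSup (fun (_ : ℝ) (u : EuclideanSpace ℝ ι) => r * ‖u‖)
          (fun k (_ : ℝ) u => cV δ d' θ G (K k) u) t₀ (u₀, v₀) ≠ 0 := by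
        obtain ⟨k, hk⟩ := exists_shSup (fun (_ : ℝ) (u : EuclideanSpace ℝ ι) => r * ‖u‖)
          (fun k (_ : ℝ) u => cV δ d' θ G (K k) u) t₀ (u₀, v₀)
        rw [← hk]
        exact hact' k
      have hmin : min (shSup (fun (_ : ℝ) (u : EuclideanSpace ℝ ι) => ρ * ‖u‖)
          (fun k (t : ℝ) u => t • phiV (K k) u) t₀ (u₀, v₀)) (frV M s 0 u₀) = 0 := by
        have h0' := h0
        unfold kre at h0'
        rcases max_choice (min (shSup (fun (_ : ℝ) (u : EuclideanSpace ℝ ι) => ρ * ‖u‖)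
          (fun k (t : ℝ) u => t • phiV (K k) u) t₀ (u₀, v₀)) (frV M s 0 u₀))
          (shSup (fun (_ : ℝ) (u : EuclideanSpace ℝ ι) => r * ‖u‖)
          (fun k (_ : ℝ) u => cV δ d' θ G (K k) u) t₀ (u₀, v₀)) with h1 | h1
        · exact h1.symm.trans h0'
        · exact absurd (h1.symm.trans h0') hA₂ne
      have hf0 : 0 ≤ frV M s 0 u₀ := hmin.ge.trans (min_le_right _ _)
      have hA₁0 := hmin.ge.trans (min_le_left _ _)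
      obtain ⟨hφs, hclose, hvperp, hφperp⟩ := h.fat ht₀.1 ht₀.2 hu' hf0 hA₁0 hβ'
      obtain ⟨k₁⟩ := (inferInstance : Nonempty σ)
      exact ⟨h.dir_fat ht₀.1 ht₀.2 hu' h0 hact' hφs hvperp hφperp,
        fun _ u => cV δ d' θ G (K k₁) u, locLip_cV h.hδ0.le h.hd' G (K k₁) u₀, h.bc t₀ u₀ k₁,
        bIm_eventually h.hδ0.le (hclose k₁)⟩

/-- **Stage S4.** -/
theorem S4Hyp.veq (h : S4Hyp K δ d' θ G ρ M s r) :
    VEq (kF K δ ρ M s r 1 fun k => cV δ d' θ G (K k))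
      (kF K δ ρ M s r 0 fun k => cV δ d' θ G (K k)) := by
  have h1 := (h.kSys.rFam).veq_Icc
  exact h1.symm

end Vale.Agent.P268.T.K372
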