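import Mathlib

/-!
# P268, topological half, block SHEETS: the thin sheets `c_K`

`u : ι → ℝ`, `nrm u = ∑ |u j|`.  Shifted positive parts `mm d u j = (u j - d |u|)⁺`, shifted
normal `nn d u j = sgn (u j) (|u j| - d |u|)⁺`, rays `phiK d K u = (K j * mm d u j)`, displacement
`PsiK d K u = (|mm|² K - ⟨K, nn⟩ mm) / |u|` and `cK d₁ d₂ θ K = phiK d₁ K + θ PsiK d₂ K`.
The displacement is exactly orthogonal to `nn d₂ u`, and two different sheets never meet
outside `{max u ≤ d₂ |u|}`.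
-/

namespace Vale.Agent.P268.T.K372

open Set Filter Topology

variable {ι : Type*} [Fintype ι]

/-- The `ℓ¹` norm. -/
noncomputable def nrm (u : ι → ℝ) : ℝ := ∑ j, |u j|

/-- Shifted positive part. -/
noncomputable def mm (d : ℝ) (u : ι → ℝ) (j : ι) : ℝ := max (u j - d * nrm u) 0

/-- Shifted normal. -/
noncomputable def nn (d : ℝ) (u : ι → ℝ) (j : ι) : ℝ :=
  max (u j - d * nrm u) 0 - max (-u j - d * nrm u) 0

/-- The ray section of `K`. -/
noncomputable def phiK (d : ℝ) (K : ι → ℕ) (u : ι → ℝ) (j : ι) : ℝ := K j * mm d u j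

/-- `|mm|²`. -/
noncomputable def PP (d : ℝ) (u : ι → ℝ) : ℝ := ∑ i, mm d u i ^ 2

/-- `⟨K, nn⟩`. -/
noncomputable def dotK (d : ℝ) (K : ι → ℕ) (u : ι → ℝ) : ℝ := ∑ i, (K i : ℝ) * nn d u i

/-- The displacement. -/
noncomputable def PsiK (d : ℝ) (K : ι → ℕ) (u : ι → ℝ) (j : ι) : ℝ :=
  (PP d u * K j - dotK d K u * mm d u j) / nrm u

/-- The sheets. -/
noncomputable def cK (d₁ d₂ θ : ℝ) (K : ι → ℕ) (u : ι → ℝ) (j : ι) : ℝ :=
  phiK d₁ K u j + θ * PsiK d₂ K u j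

/-! ### The norm -/

theorem nrm_nonneg (u : ι → ℝ) : 0 ≤ nrm u := Finset.sum_nonneg fun _ _ => abs_nonneg _

theorem abs_le_nrm (u : ι → ℝ) (j : ι) : |u j| ≤ nrm u :=
  Finset.single_le_sum (f := fun j => |u j|) (fun _ _ => abs_nonneg _) (Finset.mem_univ j)

theorem le_nrm (u : ι → ℝ) (j : ι) : u j ≤ nrm u := (le_abs_self _).trans (abs_le_nrm u j)

theorem nrm_eq_zero {u : ι → ℝ} : nrm u = 0 ↔ u = 0 := by
  constructor
  · intro h
    funext j
    have := abs_le_nrm u j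
    rw [h] at this
    exact abs_eq_zero.mp (le_antisymm this (abs_nonneg _))
  · rintro rfl
    simp [nrm]

theorem nrm_pos {u : ι → ℝ} (h : u ≠ 0) : 0 < nrm u :=
  lt_of_le_of_ne (nrm_nonneg u) fun h' => h (nrm_eq_zero.mp h'.symm)

@[simp] theorem nrm_zero : nrm (0 : ι → ℝ) = 0 := nrm_eq_zero.mpr rfl

theorem nrm_smul (r : ℝ) (u : ι → ℝ) : nrm (r • u) = |r| * nrm u := by
  simp [nrm, abs_mul, Finset.mul_sum]

theorem nrm_add_le (u v : ι → ℝ) : nrm (u + v) ≤ nrm u + nrm v := by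
  unfold nrm
  rw [← Finset.sum_add_distrib]
  exact Finset.sum_le_sum fun j _ => abs_add_le _ _

theorem nrm_neg (u : ι → ℝ) : nrm (-u) = nrm u := by simp [nrm]

theorem nrm_sub_comm (u v : ι → ℝ) : nrm (u - v) = nrm (v - u) := by
  rw [← nrm_neg, neg_sub]

theorem abs_nrm_sub_le (u v : ι → ℝ) : |nrm u - nrm v| ≤ nrm (u - v) := by
  rw [abs_sub_le_iff]
  constructor
  · have := nrm_add_le (u - v) v
    rw [sub_add_cancel] at this
    linarith
  · have := nrm_add_le (v - u) u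
    rw [sub_add_cancel, nrm_sub_comm] at this
    linarith

theorem nrm_le_card_mul_norm (u : ι → ℝ) : nrm u ≤ Fintype.card ι * ‖u‖ := by
  unfold nrm
  have : ∀ j ∈ (Finset.univ : Finset ι), |u j| ≤ ‖u‖ := fun j _ => by
    rw [← Real.norm_eq_abs]; exact norm_le_pi_norm u j
  calc ∑ j, |u j| ≤ ∑ _j : ι, ‖u‖ := Finset.sum_le_sum this
    _ = _ := by simp

theorem norm_le_nrm (u : ι → ℝ) : ‖u‖ ≤ nrm u := by
  rw [pi_norm_le_iff_of_nonneg (nrm_nonneg u)]
  intro j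
  rw [Real.norm_eq_abs]
  exact abs_le_nrm u j

theorem continuous_nrm : Continuous (nrm : (ι → ℝ) → ℝ) :=
  continuous_finsetSum _ fun j _ => (continuous_apply j).abs

theorem isCompact_sphere : IsCompact {u : ι → ℝ | nrm u = 1} := by
  refine Metric.isCompact_of_isClosed_isBounded
    (isClosed_eq continuous_nrm continuous_const) ?_
  refine (Metric.isBounded_closedBall (x := (0 : ι → ℝ)) (r := 1)).subset ?_
  intro u hu
  rw [mem_closedBall_zero_iff]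
  exact (norm_le_nrm u).trans (le_of_eq hu)

/-! ### Shifted parts -/

theorem mm_nonneg (d : ℝ) (u : ι → ℝ) (j : ι) : 0 ≤ mm d u j := le_max_right _ _

theorem mm_pos_iff {d : ℝ} {u : ι → ℝ} {j : ι} : 0 < mm d u j ↔ d * nrm u < u j := by
  unfold mm
  rw [lt_max_iff]
  simp

theorem mm_eq_zero_iff {d : ℝ} {u : ι → ℝ} {j : ι} : mm d u j = 0 ↔ u j ≤ d * nrm u := by
  rw [← not_lt, ← mm_pos_iff, not_lt]
  exact ⟨fun h => h.le, fun h => le_antisymm h (mm_nonneg _ _ _)⟩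

theorem mm_anti {d₁ d₂ : ℝ} (h : d₁ ≤ d₂) (u : ι → ℝ) (j : ι) : mm d₂ u j ≤ mm d₁ u j := by
  refine max_le_max ?_ le_rfl
  have := mul_le_mul_of_nonneg_right h (nrm_nonneg u)
  linarith

theorem mm_le {d : ℝ} (hd : 0 ≤ d) (u : ι → ℝ) (j : ι) : mm d u j ≤ nrm u := by
  refine max_le ?_ (nrm_nonneg u)
  have := mul_nonneg hd (nrm_nonneg u)
  have := le_nrm u j
  linarith

theorem nn_mul_mm {d : ℝ} (hd : 0 ≤ d) (u : ι → ℝ) (j : ι) :
    nn d u j * mm d u j = mm d u j ^ 2 := by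
  rcases le_or_gt (u j) (d * nrm u) with h | h
  · rw [mm_eq_zero_iff.mpr h]; simp
  · have h2 : max (-u j - d * nrm u) 0 = 0 := by
      refine max_eq_right ?_
      have := mul_nonneg hd (nrm_nonneg u)
      linarith
    unfold nn
    rw [h2]
    unfold mm
    ring

theorem nn_eq_mm {d : ℝ} (hd : 0 ≤ d) {u : ι → ℝ} {j : ι} (h : 0 < mm d u j) :
    nn d u j = mm d u j := by
  have := nn_mul_mm hd u j
  rw [pow_two] at this
  exact mul_right_cancel₀ h.ne' this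

theorem abs_nn_le {d : ℝ} (hd : 0 ≤ d) (u : ι → ℝ) (j : ι) : |nn d u j| ≤ nrm u := by
  have h0 := mul_nonneg hd (nrm_nonneg u)
  have h1 := abs_le_nrm u j
  have h2 := abs_le.mp h1
  have h3 := nrm_nonneg u
  rw [abs_le]
  unfold nn
  constructor
  · have a1 : 0 ≤ max (u j - d * nrm u) 0 := le_max_right _ _
    have a2 : max (-u j - d * nrm u) 0 ≤ nrm u := max_le (by linarith) h3
    linarith
  · have a1 : 0 ≤ max (-u j - d * nrm u) 0 := le_max_right _ _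
    have a2 : max (u j - d * nrm u) 0 ≤ nrm u := max_le (by linarith) h3
    linarith

theorem abs_max_zero_sub_le (a b : ℝ) : |max a 0 - max b 0| ≤ |a - b| := by
  have := abs_max_sub_max_le_abs a b 0
  exact this

theorem abs_mm_sub_le {d : ℝ} (hd : 0 ≤ d) (u v : ι → ℝ) (j : ι) :
    |mm d u j - mm d v j| ≤ (1 + d) * nrm (u - v) := by
  refine (abs_max_zero_sub_le _ _).trans ?_
  have h1 : |u j - v j| ≤ nrm (u - v) := abs_le_nrm (u - v) j
  have h2 := abs_nrm_sub_le u v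
  have h3 : u j - d * nrm u - (v j - d * nrm v) = (u j - v j) - d * (nrm u - nrm v) := by ring
  rw [h3]
  refine (abs_sub _ _).trans ?_
  rw [abs_mul, abs_of_nonneg hd]
  nlinarith

theorem abs_nn_sub_le {d : ℝ} (hd : 0 ≤ d) (u v : ι → ℝ) (j : ι) :
    |nn d u j - nn d v j| ≤ 2 * (1 + d) * nrm (u - v) := by
  have h1 := abs_mm_sub_le hd u v j
  have h2 := abs_mm_sub_le hd (-u) (-v) j
  have e1 : nrm (-u - -v) = nrm (u - v) := by rw [← nrm_neg]; congr 1; abel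
  rw [e1] at h2
  have e2 : ∀ w : ι → ℝ, nn d w j = mm d w j - mm d (-w) j := fun w => by
    unfold nn mm; rw [nrm_neg]; rfl
  rw [e2, e2]
  have e3 : mm d u j - mm d (-u) j - (mm d v j - mm d (-v) j) =
      (mm d u j - mm d v j) - (mm d (-u) j - mm d (-v) j) := by ring
  rw [e3]
  refine (abs_sub _ _).trans ?_
  linarith

/-! ### Homogeneity -/

theorem mm_smul (d : ℝ) {r : ℝ} (hr : 0 ≤ r) (u : ι → ℝ) (j : ι) :
    mm d (r • u) j = r * mm d u j := by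
  unfold mm
  rw [nrm_smul, abs_of_nonneg hr, mul_max_of_nonneg _ _ hr, mul_zero, Pi.smul_apply, smul_eq_mul]
  congr 1
  ring

theorem nn_smul (d : ℝ) {r : ℝ} (hr : 0 ≤ r) (u : ι → ℝ) (j : ι) :
    nn d (r • u) j = r * nn d u j := by
  unfold nn
  rw [nrm_smul, abs_of_nonneg hr, mul_sub, mul_max_of_nonneg _ _ hr, mul_max_of_nonneg _ _ hr,
    mul_zero, Pi.smul_apply, smul_eq_mul]
  congr 2 <;> ring

theorem PP_smul (d : ℝ) {r : ℝ} (hr : 0 ≤ r) (u : ι → ℝ) : PP d (r • u) = r ^ 2 * PP d u := by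
  unfold PP
  rw [Finset.mul_sum]
  exact Finset.sum_congr rfl fun i _ => by rw [mm_smul d hr]; ring

theorem dotK_smul (d : ℝ) (K : ι → ℕ) {r : ℝ} (hr : 0 ≤ r) (u : ι → ℝ) :
    dotK d K (r • u) = r * dotK d K u := by
  unfold dotK
  rw [Finset.mul_sum]
  exact Finset.sum_congr rfl fun i _ => by rw [nn_smul d hr]; ring

theorem phiK_smul (d : ℝ) (K : ι → ℕ) {r : ℝ} (hr : 0 ≤ r) (u : ι → ℝ) (j : ι) :
    phiK d K (r • u) j = r * phiK d K u j := by
  unfold phiK; rw [mm_smul d hr]; ring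

theorem PsiK_smul (d : ℝ) (K : ι → ℕ) {r : ℝ} (hr : 0 ≤ r) (u : ι → ℝ) (j : ι) :
    PsiK d K (r • u) j = r * PsiK d K u j := by
  unfold PsiK
  rw [PP_smul d hr, dotK_smul d K hr, mm_smul d hr, nrm_smul, abs_of_nonneg hr]
  rcases hr.eq_or_lt with h | h
  · rw [← h]; simp
  · rcases (nrm_nonneg u).eq_or_lt with h' | h'
    · rw [← h']; simp
    · field_simp

theorem cK_smul (d₁ d₂ θ : ℝ) (K : ι → ℕ) {r : ℝ} (hr : 0 ≤ r) (u : ι → ℝ) (j : ι) :
    cK d₁ d₂ θ K (r • u) j = r * cK d₁ d₂ θ K u j := by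
  unfold cK; rw [phiK_smul d₁ K hr, PsiK_smul d₂ K hr]; ring

/-! ### Orthogonality -/

theorem sum_mm_mul_nn {d : ℝ} (hd : 0 ≤ d) (u : ι → ℝ) : ∑ j, mm d u j * nn d u j = PP d u :=
  Finset.sum_congr rfl fun j _ => by rw [mul_comm, nn_mul_mm hd]

/-- The displacement is exactly orthogonal to the normal. -/
theorem sum_PsiK_mul_nn {d : ℝ} (hd : 0 ≤ d) (K : ι → ℕ) (u : ι → ℝ) :
    ∑ j, PsiK d K u j * nn d u j = 0 := by
  have h1 : ∀ j, PsiK d K u j * nn d u j =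
      (PP d u * ((K j : ℝ) * nn d u j) - dotK d K u * (mm d u j * nn d u j)) / nrm u := fun j => by
    unfold PsiK; ring
  rw [Finset.sum_congr rfl fun j _ => h1 j, ← Finset.sum_div, Finset.sum_sub_distrib,
    ← Finset.mul_sum, ← Finset.mul_sum, sum_mm_mul_nn hd]
  unfold dotK
  ring

theorem sum_cK_mul_nn {d₁ d₂ : ℝ} (hd : 0 ≤ d₂) (θ : ℝ) (K : ι → ℕ) (u : ι → ℝ) :
    ∑ j, cK d₁ d₂ θ K u j * nn d₂ u j = ∑ j, phiK d₁ K u j * nn d₂ u j := by
  have h := sum_PsiK_mul_nn hd K u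
  have h1 : ∀ j, cK d₁ d₂ θ K u j * nn d₂ u j =
      phiK d₁ K u j * nn d₂ u j + θ * (PsiK d₂ K u j * nn d₂ u j) := fun j => by
    unfold cK; ring
  rw [Finset.sum_congr rfl fun j _ => h1 j, Finset.sum_add_distrib, ← Finset.mul_sum, h]
  ring

theorem sum_cK_sub_phiK_mul_nn {d₁ d₂ : ℝ} (hd : 0 ≤ d₂) (θ : ℝ) (K : ι → ℕ) (u : ι → ℝ) :
    ∑ j, (cK d₁ d₂ θ K u j - phiK d₁ K u j) * nn d₂ u j = 0 := by
  have h := sum_cK_mul_nn (d₁ := d₁) hd θ K u
  rw [← sub_eq_zero, ← Finset.sum_sub_distrib] at h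
  rw [← h]
  exact Finset.sum_congr rfl fun j _ => by ring

/-! ### Vanishing over the cone -/

theorem PP_nonneg (d : ℝ) (u : ι → ℝ) : 0 ≤ PP d u := Finset.sum_nonneg fun _ _ => sq_nonneg _

theorem PP_pos {d : ℝ} {u : ι → ℝ} (h : ∃ j, d * nrm u < u j) : 0 < PP d u := by
  obtain ⟨j, hj⟩ := h
  have h1 : 0 < mm d u j := mm_pos_iff.mpr hj
  have h2 : mm d u j ^ 2 ≤ PP d u :=
    Finset.single_le_sum (f := fun i => mm d u i ^ 2) (fun _ _ => sq_nonneg _) (Finset.mem_univ j)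
  exact lt_of_lt_of_le (by positivity) h2

theorem PsiK_eq_zero {d : ℝ} {u : ι → ℝ} (h : ∀ j, u j ≤ d * nrm u) (K : ι → ℕ) (j : ι) :
    PsiK d K u j = 0 := by
  have h0 : ∀ j, mm d u j = 0 := fun j => mm_eq_zero_iff.mpr (h j)
  simp [PsiK, PP, h0]

theorem phiK_eq_zero {d : ℝ} {u : ι → ℝ} {j : ι} (h : u j ≤ d * nrm u) (K : ι → ℕ) :
    phiK d K u j = 0 := by
  simp [phiK, mm_eq_zero_iff.mpr h]

theorem cK_eq_phiK {d₁ d₂ θ : ℝ} {u : ι → ℝ} (h : ∀ j, u j ≤ d₂ * nrm u) (K : ι → ℕ) (j : ι) :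
    cK d₁ d₂ θ K u j = phiK d₁ K u j := by
  simp [cK, PsiK_eq_zero h]

theorem cK_eq_zero {d₁ d₂ θ : ℝ} (h12 : d₁ ≤ d₂) {u : ι → ℝ} (h : ∀ j, u j ≤ d₁ * nrm u)
    (K : ι → ℕ) (j : ι) : cK d₁ d₂ θ K u j = 0 := by
  rw [cK_eq_phiK (fun j => (h j).trans (mul_le_mul_of_nonneg_right h12 (nrm_nonneg u))),
    phiK_eq_zero (h j)]

/-- Over `{max u ≤ d₂ |u|}` the sheets are exactly orthogonal to the normal. -/
theorem sum_cK_mul_nn_eq_zero {d₁ d₂ : ℝ} (hd1 : 0 ≤ d₁) (hd : 0 ≤ d₂) (θ : ℝ) (K : ι → ℕ)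
    {u : ι → ℝ} (h : ∀ j, u j ≤ d₂ * nrm u) : ∑ j, cK d₁ d₂ θ K u j * nn d₂ u j = 0 := by
  rw [sum_cK_mul_nn hd]
  refine Finset.sum_eq_zero fun j _ => ?_
  rcases le_or_gt (u j) (d₁ * nrm u) with h1 | h1
  · rw [phiK_eq_zero h1, zero_mul]
  · have h2 : nn d₂ u j = 0 := by
      unfold nn
      have a1 : max (u j - d₂ * nrm u) 0 = 0 := max_eq_right (by linarith [h j])
      have a2 : max (-u j - d₂ * nrm u) 0 = 0 := by
        refine max_eq_right ?_
        have := mul_nonneg hd1 (nrm_nonneg u)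
        have := mul_nonneg hd (nrm_nonneg u)
        linarith
      rw [a1, a2, sub_zero]
    rw [h2, mul_zero]

/-! ### The sheets never meet -/

/-- **Different sheets are disjoint** outside `{max u ≤ d₂ |u|}`. -/
theorem cK_ne {d₁ d₂ θ : ℝ} (h12 : d₁ ≤ d₂) (hd : 0 ≤ d₂) (hθ : 0 < θ) {K L : ι → ℕ}
    (hKL : K ≠ L) {u : ι → ℝ} (hu : ∃ j, d₂ * nrm u < u j) :
    cK d₁ d₂ θ K u ≠ cK d₁ d₂ θ L u := by
  intro heq
  apply hKL
  have hu0 : u ≠ 0 := by
    rintro rfl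
    obtain ⟨j, hj⟩ := hu
    simp at hj
  have hN : 0 < nrm u := nrm_pos hu0
  have hP : 0 < PP d₂ u := PP_pos hu
  set P := PP d₂ u with hPdef
  set q : ℝ := θ / nrm u with hq
  have hq0 : 0 < q := div_pos hθ hN
  set D : ι → ℝ := fun j => (K j : ℝ) - L j with hD
  set g : ℝ := ∑ i, D i * nn d₂ u i with hg
  have key : ∀ j, D j * mm d₁ u j + q * (P * D j - g * mm d₂ u j) = 0 := by
    intro j
    have h1 := congrFun heq j
    have e1 : dotK d₂ K u - dotK d₂ L u = g := by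
      unfold dotK
      rw [hg, ← Finset.sum_sub_distrib]
      exact Finset.sum_congr rfl fun i _ => by simp only [hD]; ring
    unfold cK phiK PsiK at h1
    rw [← hPdef] at h1
    have h2 : D j * mm d₁ u j + q * (P * D j - (dotK d₂ K u - dotK d₂ L u) * mm d₂ u j) =
        (K j * mm d₁ u j + θ * ((P * K j - dotK d₂ K u * mm d₂ u j) / nrm u)) -
        (L j * mm d₁ u j + θ * ((P * L j - dotK d₂ L u * mm d₂ u j) / nrm u)) := by
      simp only [hD, hq]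
      ring
    rw [e1] at h2
    rw [h2, h1, sub_self]
  have hden : ∀ j, 0 < mm d₁ u j + q * P := fun j => by
    have := mm_nonneg d₁ u j
    positivity
  have hDj : ∀ j, D j = q * g * mm d₂ u j / (mm d₁ u j + q * P) := by
    intro j
    rw [eq_div_iff (hden j).ne']
    linarith [key j]
  have hgsum : g = q * g * ∑ j, mm d₂ u j ^ 2 / (mm d₁ u j + q * P) := by
    conv_lhs => rw [hg]
    rw [Finset.mul_sum]
    refine Finset.sum_congr rfl fun j _ => ?_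
    rw [hDj j, div_mul_eq_mul_div, mul_assoc, mul_comm (mm d₂ u j) (nn d₂ u j), nn_mul_mm hd,
      mul_div_assoc]
  have hg0 : g = 0 := by
    by_contra hne
    have h1 : 1 = q * ∑ j, mm d₂ u j ^ 2 / (mm d₁ u j + q * P) := by
      have h2 : g * 1 = g * (q * ∑ j, mm d₂ u j ^ 2 / (mm d₁ u j + q * P)) := by
        rw [mul_one]; linarith [hgsum]
      exact mul_left_cancel₀ hne h2
    obtain ⟨i, hi⟩ := hu
    have hi' : 0 < mm d₂ u i := mm_pos_iff.mpr hi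
    have hlt : ∑ j, mm d₂ u j ^ 2 / (mm d₁ u j + q * P) < ∑ j, mm d₂ u j ^ 2 / (q * P) := by
      refine Finset.sum_lt_sum (fun j _ => ?_) ⟨i, Finset.mem_univ _, ?_⟩
      · refine div_le_div_of_nonneg_left (sq_nonneg _) (by positivity) ?_
        linarith [mm_nonneg d₁ u j]
      · refine div_lt_div_of_pos_left (by positivity) (by positivity) ?_
        have := lt_of_lt_of_le hi' (mm_anti h12 u i)
        linarith
    have h3 : ∑ j, mm d₂ u j ^ 2 / (q * P) = 1 / q := by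
      rw [← Finset.sum_div]
      have : ∑ j, mm d₂ u j ^ 2 = P := rfl
      rw [this]
      field_simp
    rw [h3] at hlt
    have h4 : q * ∑ j, mm d₂ u j ^ 2 / (mm d₁ u j + q * P) < q * (1 / q) :=
      mul_lt_mul_of_pos_left hlt hq0
    rw [← h1] at h4
    have h5 : q * (1 / q) = 1 := by field_simp
    linarith
  funext j
  have h1 := hDj j
  rw [hg0, mul_zero, zero_mul, zero_div] at h1
  have h2 : (K j : ℝ) = L j := by simpa [hD, sub_eq_zero] using h1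
  exact_mod_cast h2

end Vale.Agent.P268.T.K372
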