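import Vale.Agent.P268.T.K372.Sheets

/-!
# P268, topological half, block SHEETS (part 2): bounds, Lipschitz constants, separation
-/

namespace Vale.Agent.P268.T.K372

open Set Filter Topology

variable {ι : Type*} [Fintype ι]

/-- `∑ K j` as a real number. -/
noncomputable def ksum (K : ι → ℕ) : ℝ := ∑ j, (K j : ℝ)

theorem ksum_nonneg (K : ι → ℕ) : 0 ≤ ksum K := Finset.sum_nonneg fun _ _ => Nat.cast_nonneg _

theorem le_ksum (K : ι → ℕ) (j : ι) : (K j : ℝ) ≤ ksum K :=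
  Finset.single_le_sum (f := fun j => (K j : ℝ)) (fun _ _ => Nat.cast_nonneg _) (Finset.mem_univ j)

theorem mm_le_abs {d : ℝ} (hd : 0 ≤ d) (u : ι → ℝ) (j : ι) : mm d u j ≤ |u j| := by
  refine max_le ?_ (abs_nonneg _)
  have := mul_nonneg hd (nrm_nonneg u)
  linarith [le_abs_self (u j)]

theorem sum_mm_le {d : ℝ} (hd : 0 ≤ d) (u : ι → ℝ) : ∑ j, mm d u j ≤ nrm u :=
  Finset.sum_le_sum fun j _ => mm_le_abs hd u j

theorem PP_le {d : ℝ} (hd : 0 ≤ d) (u : ι → ℝ) : PP d u ≤ nrm u ^ 2 := by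
  have h1 : PP d u ≤ ∑ j, nrm u * mm d u j := by
    refine Finset.sum_le_sum fun j _ => ?_
    rw [pow_two]
    exact mul_le_mul_of_nonneg_right (mm_le hd u j) (mm_nonneg _ _ _)
  rw [← Finset.mul_sum] at h1
  have h2 := mul_le_mul_of_nonneg_left (sum_mm_le hd u) (nrm_nonneg u)
  rw [pow_two]
  exact h1.trans h2

theorem abs_dotK_le {d : ℝ} (hd : 0 ≤ d) (K : ι → ℕ) (u : ι → ℝ) :
    |dotK d K u| ≤ ksum K * nrm u := by
  unfold dotK ksum
  refine (Finset.abs_sum_le_sum_abs _ _).trans ?_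
  rw [Finset.sum_mul]
  refine Finset.sum_le_sum fun i _ => ?_
  rw [abs_mul, abs_of_nonneg (Nat.cast_nonneg (K i) : (0:ℝ) ≤ K i)]
  exact mul_le_mul_of_nonneg_left (abs_nn_le hd u i) (Nat.cast_nonneg _)

/-- The numerator of the displacement. -/
noncomputable def QK (d : ℝ) (K : ι → ℕ) (u : ι → ℝ) (j : ι) : ℝ :=
  PP d u * K j - dotK d K u * mm d u j

theorem PsiK_eq (d : ℝ) (K : ι → ℕ) (u : ι → ℝ) (j : ι) : PsiK d K u j = QK d K u j / nrm u := rfl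

theorem abs_QK_le {d : ℝ} (hd : 0 ≤ d) (K : ι → ℕ) (u : ι → ℝ) (j : ι) :
    |QK d K u j| ≤ (nrm u * K j + ksum K * |u j|) * nrm u := by
  unfold QK
  refine (abs_sub _ _).trans ?_
  rw [abs_mul, abs_mul, abs_of_nonneg (PP_nonneg d u),
    abs_of_nonneg (Nat.cast_nonneg (K j) : (0:ℝ) ≤ K j), abs_of_nonneg (mm_nonneg d u j)]
  have h1 := mul_le_mul_of_nonneg_right (PP_le hd u) (Nat.cast_nonneg (K j) : (0:ℝ) ≤ K j)
  have h2 : |dotK d K u| * mm d u j ≤ ksum K * nrm u * |u j| :=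
    mul_le_mul (abs_dotK_le hd K u) (mm_le_abs hd u j) (mm_nonneg _ _ _)
      (mul_nonneg (ksum_nonneg K) (nrm_nonneg u))
  nlinarith

theorem abs_QK_le' {d : ℝ} (hd : 0 ≤ d) (K : ι → ℕ) (u : ι → ℝ) (j : ι) :
    |QK d K u j| ≤ 2 * ksum K * nrm u ^ 2 := by
  refine (abs_QK_le hd K u j).trans ?_
  have h1 := mul_le_mul_of_nonneg_left (le_ksum K j) (nrm_nonneg u)
  have h2 := mul_le_mul_of_nonneg_left (abs_le_nrm u j) (ksum_nonneg K)
  nlinarith [nrm_nonneg u]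

theorem abs_PsiK_le {d : ℝ} (hd : 0 ≤ d) (K : ι → ℕ) (u : ι → ℝ) (j : ι) :
    |PsiK d K u j| ≤ nrm u * K j + ksum K * |u j| := by
  rw [PsiK_eq, abs_div, abs_of_nonneg (nrm_nonneg u)]
  refine div_le_of_le_mul₀ (nrm_nonneg u) ?_ (abs_QK_le hd K u j)
  exact add_nonneg (mul_nonneg (nrm_nonneg u) (Nat.cast_nonneg _))
    (mul_nonneg (ksum_nonneg K) (abs_nonneg _))

theorem sum_abs_PsiK_le {d : ℝ} (hd : 0 ≤ d) (K : ι → ℕ) (u : ι → ℝ) :
    ∑ j, |PsiK d K u j| ≤ 2 * ksum K * nrm u := by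
  refine (Finset.sum_le_sum fun j _ => abs_PsiK_le hd K u j).trans ?_
  rw [Finset.sum_add_distrib, ← Finset.mul_sum, ← Finset.mul_sum]
  have e1 : ∑ i, (K i : ℝ) = ksum K := rfl
  have e2 : ∑ i, |u i| = nrm u := rfl
  rw [e1, e2]
  linarith

theorem sum_abs_phiK_le {d : ℝ} (hd : 0 ≤ d) (K : ι → ℕ) (u : ι → ℝ) :
    ∑ j, |phiK d K u j| ≤ ksum K * nrm u := by
  unfold ksum
  rw [Finset.sum_mul]
  refine Finset.sum_le_sum fun j _ => ?_
  unfold phiK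
  rw [abs_mul, abs_of_nonneg (Nat.cast_nonneg (K j) : (0:ℝ) ≤ K j), abs_of_nonneg (mm_nonneg d u j)]
  exact mul_le_mul_of_nonneg_left (mm_le hd u j) (Nat.cast_nonneg _)

/-- The displacement is small. -/
theorem sum_abs_cK_sub_phiK_le {d₁ d₂ θ : ℝ} (hd : 0 ≤ d₂) (hθ : 0 ≤ θ) (K : ι → ℕ) (u : ι → ℝ) :
    ∑ j, |cK d₁ d₂ θ K u j - phiK d₁ K u j| ≤ 2 * θ * ksum K * nrm u := by
  have h : ∀ j, |cK d₁ d₂ θ K u j - phiK d₁ K u j| = θ * |PsiK d₂ K u j| := fun j => by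
    unfold cK
    rw [add_sub_cancel_left, abs_mul, abs_of_nonneg hθ]
  rw [Finset.sum_congr rfl fun j _ => h j, ← Finset.mul_sum]
  have := mul_le_mul_of_nonneg_left (sum_abs_PsiK_le hd K u) hθ
  linarith

theorem sum_abs_cK_le {d₁ d₂ θ : ℝ} (hd1 : 0 ≤ d₁) (hd : 0 ≤ d₂) (hθ : 0 ≤ θ) (K : ι → ℕ)
    (u : ι → ℝ) : ∑ j, |cK d₁ d₂ θ K u j| ≤ (1 + 2 * θ) * ksum K * nrm u := by
  have h : ∀ j, |cK d₁ d₂ θ K u j| ≤ |phiK d₁ K u j| + θ * |PsiK d₂ K u j| := fun j => by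
    unfold cK
    refine (abs_add_le _ _).trans ?_
    rw [abs_mul, abs_of_nonneg hθ]
  refine (Finset.sum_le_sum fun j _ => h j).trans ?_
  rw [Finset.sum_add_distrib, ← Finset.mul_sum]
  have h1 := mul_le_mul_of_nonneg_left (sum_abs_PsiK_le hd K u) hθ
  have h2 := sum_abs_phiK_le hd1 K u
  nlinarith

/-! ### Lipschitz estimates -/

theorem abs_phiK_sub_le {d : ℝ} (hd : 0 ≤ d) (K : ι → ℕ) (u v : ι → ℝ) (j : ι) :
    |phiK d K u j - phiK d K v j| ≤ ksum K * (1 + d) * nrm (u - v) := by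
  unfold phiK
  rw [← mul_sub, abs_mul, abs_of_nonneg (Nat.cast_nonneg (K j) : (0:ℝ) ≤ K j), mul_assoc]
  exact mul_le_mul (le_ksum K j) (abs_mm_sub_le hd u v j) (abs_nonneg _) (ksum_nonneg K)

theorem abs_PP_sub_le {d : ℝ} (hd : 0 ≤ d) (u v : ι → ℝ) :
    |PP d u - PP d v| ≤ (1 + d) * nrm (u - v) * (nrm u + nrm v) := by
  unfold PP
  rw [← Finset.sum_sub_distrib]
  refine (Finset.abs_sum_le_sum_abs _ _).trans ?_
  have h1 : ∀ j ∈ (Finset.univ : Finset ι), |mm d u j ^ 2 - mm d v j ^ 2| ≤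
      (1 + d) * nrm (u - v) * (mm d u j + mm d v j) := by
    intro j _
    rw [sq_sub_sq, abs_mul, mul_comm, abs_of_nonneg (add_nonneg (mm_nonneg d u j) (mm_nonneg d v j))]
    exact mul_le_mul_of_nonneg_right (abs_mm_sub_le hd u v j)
      (add_nonneg (mm_nonneg d u j) (mm_nonneg d v j))
  refine (Finset.sum_le_sum h1).trans ?_
  rw [← Finset.mul_sum, Finset.sum_add_distrib]
  refine mul_le_mul_of_nonneg_left (add_le_add (sum_mm_le hd u) (sum_mm_le hd v)) ?_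
  exact mul_nonneg (by linarith) (nrm_nonneg _)

theorem abs_dotK_sub_le {d : ℝ} (hd : 0 ≤ d) (K : ι → ℕ) (u v : ι → ℝ) :
    |dotK d K u - dotK d K v| ≤ ksum K * (2 * (1 + d) * nrm (u - v)) := by
  unfold dotK ksum
  rw [← Finset.sum_sub_distrib, Finset.sum_mul]
  refine (Finset.abs_sum_le_sum_abs _ _).trans (Finset.sum_le_sum fun i _ => ?_)
  rw [← mul_sub, abs_mul, abs_of_nonneg (Nat.cast_nonneg (K i) : (0:ℝ) ≤ K i)]
  exact mul_le_mul_of_nonneg_left (abs_nn_sub_le hd u v i) (Nat.cast_nonneg _)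

theorem abs_QK_sub_le {d : ℝ} (hd : 0 ≤ d) (K : ι → ℕ) (u v : ι → ℝ) (j : ι) :
    |QK d K u j - QK d K v j| ≤ 3 * ksum K * (1 + d) * nrm (u - v) * (nrm u + nrm v) := by
  have e : QK d K u j - QK d K v j = (PP d u - PP d v) * K j -
      ((dotK d K u - dotK d K v) * mm d u j + dotK d K v * (mm d u j - mm d v j)) := by
    unfold QK; ring
  rw [e]
  refine (abs_sub _ _).trans ?_
  have hK := le_ksum K j
  have hK0 := ksum_nonneg K
  have hu := nrm_nonneg u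
  have hv := nrm_nonneg v
  have hw := nrm_nonneg (u - v)
  have h1 : |(PP d u - PP d v) * K j| ≤ (1 + d) * nrm (u - v) * (nrm u + nrm v) * ksum K := by
    rw [abs_mul, abs_of_nonneg (Nat.cast_nonneg (K j) : (0:ℝ) ≤ K j)]
    exact mul_le_mul (abs_PP_sub_le hd u v) hK (Nat.cast_nonneg _)
      (by positivity)
  have h2 : |(dotK d K u - dotK d K v) * mm d u j| ≤
      ksum K * (2 * (1 + d) * nrm (u - v)) * nrm u := by
    rw [abs_mul, abs_of_nonneg (mm_nonneg d u j)]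
    exact mul_le_mul (abs_dotK_sub_le hd K u v) (mm_le hd u j) (mm_nonneg _ _ _) (by positivity)
  have h3 : |dotK d K v * (mm d u j - mm d v j)| ≤
      ksum K * nrm v * ((1 + d) * nrm (u - v)) := by
    rw [abs_mul]
    exact mul_le_mul (abs_dotK_le hd K v) (abs_mm_sub_le hd u v j) (abs_nonneg _) (by positivity)
  have h4 := (abs_add_le ((dotK d K u - dotK d K v) * mm d u j)
    (dotK d K v * (mm d u j - mm d v j)))
  have h5 : 0 ≤ ksum K * (1 + d) * nrm (u - v) * nrm v := by positivity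
  nlinarith

theorem abs_PsiK_sub_le {d : ℝ} (hd : 0 ≤ d) (K : ι → ℕ) (u v : ι → ℝ) (j : ι) :
    |PsiK d K u j - PsiK d K v j| ≤ 8 * ksum K * (1 + d) * nrm (u - v) := by
  wlog h : nrm v ≤ nrm u with H
  · rw [abs_sub_comm, nrm_sub_comm]
    exact H hd K v u j (le_of_not_ge h)
  have hK0 := ksum_nonneg K
  have hv := nrm_nonneg v
  have hw := nrm_nonneg (u - v)
  rcases hv.eq_or_lt with h0 | h0
  · have hv0 : v = 0 := nrm_eq_zero.mp h0.symm
    subst hv0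
    have e1 : PsiK d K (0 : ι → ℝ) j = 0 := by simp [PsiK]
    rw [e1, sub_zero, sub_zero]
    rw [PsiK_eq, abs_div, abs_of_nonneg (nrm_nonneg u)]
    refine div_le_of_le_mul₀ (nrm_nonneg u) (by have := nrm_nonneg u; positivity) ?_
    refine (abs_QK_le' hd K u j).trans ?_
    have : 0 ≤ ksum K * nrm u ^ 2 := by positivity
    nlinarith [mul_nonneg this hd]
  · have hu : 0 < nrm u := lt_of_lt_of_le h0 h
    have e : PsiK d K u j - PsiK d K v j =
        (QK d K u j - QK d K v j) / nrm u + QK d K v j * (nrm v - nrm u) / (nrm u * nrm v) := by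
      rw [PsiK_eq, PsiK_eq]
      field_simp
      ring
    rw [e]
    refine (abs_add_le _ _).trans ?_
    have h1 : |(QK d K u j - QK d K v j) / nrm u| ≤ 6 * ksum K * (1 + d) * nrm (u - v) := by
      rw [abs_div, abs_of_pos hu, div_le_iff₀ hu]
      refine (abs_QK_sub_le hd K u v j).trans ?_
      have : 0 ≤ ksum K * (1 + d) * nrm (u - v) := by positivity
      nlinarith
    have h2 : |QK d K v j * (nrm v - nrm u) / (nrm u * nrm v)| ≤ 2 * ksum K * nrm (u - v) := by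
      rw [abs_div, abs_of_pos (mul_pos hu h0), div_le_iff₀ (mul_pos hu h0), abs_mul]
      have a1 := abs_QK_le' hd K v j
      have a2 : |nrm v - nrm u| ≤ nrm (u - v) := by
        rw [nrm_sub_comm]; exact abs_nrm_sub_le v u
      have a3 : |QK d K v j| * |nrm v - nrm u| ≤ 2 * ksum K * nrm v ^ 2 * nrm (u - v) :=
        mul_le_mul a1 a2 (abs_nonneg _) (by positivity)
      refine a3.trans ?_
      have a4 : 0 ≤ ksum K * nrm v * nrm (u - v) := by positivity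
      nlinarith
    have h3 : 0 ≤ ksum K * d * nrm (u - v) := by positivity
    nlinarith

/-- Lipschitz constant of the sheets. -/
noncomputable def lipC (d₁ d₂ θ : ℝ) (K : ι → ℕ) : ℝ :=
  ksum K * (1 + d₁) + θ * (8 * ksum K * (1 + d₂))

theorem lipC_nonneg {d₁ d₂ θ : ℝ} (h1 : 0 ≤ d₁) (h2 : 0 ≤ d₂) (hθ : 0 ≤ θ) (K : ι → ℕ) :
    0 ≤ lipC d₁ d₂ θ K := by
  have := ksum_nonneg K
  unfold lipC
  positivity

theorem abs_cK_sub_le {d₁ d₂ θ : ℝ} (h1 : 0 ≤ d₁) (h2 : 0 ≤ d₂) (hθ : 0 ≤ θ) (K : ι → ℕ)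
    (u v : ι → ℝ) (j : ι) :
    |cK d₁ d₂ θ K u j - cK d₁ d₂ θ K v j| ≤ lipC d₁ d₂ θ K * nrm (u - v) := by
  have e : cK d₁ d₂ θ K u j - cK d₁ d₂ θ K v j = (phiK d₁ K u j - phiK d₁ K v j) +
      θ * (PsiK d₂ K u j - PsiK d₂ K v j) := by unfold cK; ring
  rw [e]
  refine (abs_add_le _ _).trans ?_
  rw [abs_mul, abs_of_nonneg hθ]
  have a1 := abs_phiK_sub_le h1 K u v j
  have a2 := mul_le_mul_of_nonneg_left (abs_PsiK_sub_le h2 K u v j) hθ
  unfold lipC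
  nlinarith

theorem nrm_cK_sub_le {d₁ d₂ θ : ℝ} (h1 : 0 ≤ d₁) (h2 : 0 ≤ d₂) (hθ : 0 ≤ θ) (K : ι → ℕ)
    (u v : ι → ℝ) : nrm (cK d₁ d₂ θ K u - cK d₁ d₂ θ K v) ≤
      Fintype.card ι * lipC d₁ d₂ θ K * nrm (u - v) := by
  unfold nrm
  refine (Finset.sum_le_sum fun j _ => abs_cK_sub_le h1 h2 hθ K u v j).trans ?_
  rw [Finset.sum_const, Finset.card_univ, nsmul_eq_mul, mul_assoc]
  rfl

theorem lipschitz_of_abs {f : (ι → ℝ) → (ι → ℝ)} {C : ℝ} (hC : 0 ≤ C)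
    (h : ∀ u v j, |f u j - f v j| ≤ C * nrm (u - v)) :
    LipschitzWith (Real.toNNReal (C * Fintype.card ι)) f := by
  refine LipschitzWith.of_dist_le_mul fun u v => ?_
  have hc : 0 ≤ C * Fintype.card ι := mul_nonneg hC (Nat.cast_nonneg _)
  rw [Real.coe_toNNReal _ hc, dist_eq_norm, dist_eq_norm,
    pi_norm_le_iff_of_nonneg (mul_nonneg hc (norm_nonneg _))]
  intro j
  rw [Real.norm_eq_abs]
  refine (h u v j).trans ?_
  rw [mul_assoc]
  exact mul_le_mul_of_nonneg_left (nrm_le_card_mul_norm _) hC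

theorem lipschitz_cK {d₁ d₂ θ : ℝ} (h1 : 0 ≤ d₁) (h2 : 0 ≤ d₂) (hθ : 0 ≤ θ) (K : ι → ℕ) :
    LipschitzWith (Real.toNNReal (lipC d₁ d₂ θ K * Fintype.card ι)) (cK d₁ d₂ θ K) :=
  lipschitz_of_abs (lipC_nonneg h1 h2 hθ K) (abs_cK_sub_le h1 h2 hθ K)

theorem continuous_cK {d₁ d₂ θ : ℝ} (h1 : 0 ≤ d₁) (h2 : 0 ≤ d₂) (hθ : 0 ≤ θ) (K : ι → ℕ) :
    Continuous (cK d₁ d₂ θ K) := (lipschitz_cK h1 h2 hθ K).continuous

theorem lipschitz_nn {d : ℝ} (hd : 0 ≤ d) :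
    LipschitzWith (Real.toNNReal (2 * (1 + d) * Fintype.card ι)) (nn d : (ι → ℝ) → ι → ℝ) :=
  lipschitz_of_abs (by positivity) (abs_nn_sub_le hd)

theorem continuous_nn {d : ℝ} (hd : 0 ≤ d) : Continuous (nn d : (ι → ℝ) → ι → ℝ) :=
  (lipschitz_nn hd).continuous

theorem lipschitz_mm {d : ℝ} (hd : 0 ≤ d) :
    LipschitzWith (Real.toNNReal ((1 + d) * Fintype.card ι)) (mm d : (ι → ℝ) → ι → ℝ) :=
  lipschitz_of_abs (by positivity) (abs_mm_sub_le hd)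

theorem continuous_mm {d : ℝ} (hd : 0 ≤ d) : Continuous (mm d : (ι → ℝ) → ι → ℝ) :=
  (lipschitz_mm hd).continuous

theorem lipschitz_phiK {d : ℝ} (hd : 0 ≤ d) (K : ι → ℕ) :
    LipschitzWith (Real.toNNReal (ksum K * (1 + d) * Fintype.card ι)) (phiK d K) :=
  lipschitz_of_abs (mul_nonneg (ksum_nonneg K) (by linarith)) (abs_phiK_sub_le hd K)

theorem continuous_phiK {d : ℝ} (hd : 0 ≤ d) (K : ι → ℕ) : Continuous (phiK d K) :=
  (lipschitz_phiK hd K).continuous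

theorem continuous_PsiK {d : ℝ} (hd : 0 ≤ d) (K : ι → ℕ) : Continuous (PsiK d K) :=
  (lipschitz_of_abs (mul_nonneg (mul_nonneg (by norm_num) (ksum_nonneg K)) (by linarith))
    (abs_PsiK_sub_le hd K)).continuous

/-! ### The normal does not vanish -/

theorem exists_abs_ge [Nonempty ι] (u : ι → ℝ) : ∃ j, nrm u ≤ Fintype.card ι * |u j| := by
  obtain ⟨j, -, hj⟩ := Finset.exists_max_image (Finset.univ : Finset ι) (fun j => |u j|)
    Finset.univ_nonempty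
  refine ⟨j, ?_⟩
  unfold nrm
  refine (Finset.sum_le_sum fun i hi => hj i hi).trans ?_
  simp

theorem exists_nn_ne_zero [Nonempty ι] {d : ℝ} (hd : 0 ≤ d) (hc : d * Fintype.card ι < 1)
    {u : ι → ℝ} (hu : u ≠ 0) : ∃ j, nn d u j ≠ 0 := by
  obtain ⟨j, hj⟩ := exists_abs_ge u
  refine ⟨j, ?_⟩
  have hN := nrm_pos hu
  have h0 := mul_nonneg hd hN.le
  have hcard : (0:ℝ) < Fintype.card ι := by exact_mod_cast Fintype.card_pos
  have h1 : d * nrm u < |u j| := by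
    have h2 : Fintype.card ι * (d * nrm u) < Fintype.card ι * |u j| := by
      calc (Fintype.card ι : ℝ) * (d * nrm u) = (d * Fintype.card ι) * nrm u := by ring
        _ < 1 * nrm u := mul_lt_mul_of_pos_right hc hN
        _ ≤ _ := by rw [one_mul]; exact hj
    exact lt_of_mul_lt_mul_left h2 hcard.le
  unfold nn
  rcases le_or_gt 0 (u j) with h3 | h3
  · rw [abs_of_nonneg h3] at h1
    rw [max_eq_left (by linarith), max_eq_right (by linarith)]
    linarith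
  · rw [abs_of_neg h3] at h1
    rw [max_eq_right (by linarith), max_eq_left (by linarith)]
    linarith

theorem nn_ne_zero [Nonempty ι] {d : ℝ} (hd : 0 ≤ d) (hc : d * Fintype.card ι < 1)
    {u : ι → ℝ} (hu : u ≠ 0) : nn d u ≠ 0 := by
  obtain ⟨j, hj⟩ := exists_nn_ne_zero hd hc hu
  exact fun h => hj (congrFun h j)

/-! ### Quantitative separation -/

theorem exists_sep_pair {d₁ d₂ θ d : ℝ} (h1 : 0 ≤ d₁) (h12 : d₁ ≤ d₂) (hθ : 0 < θ) (hd : d₂ < d)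
    {K L : ι → ℕ} (hKL : K ≠ L) : ∃ r > 0, ∀ u : ι → ℝ, (∃ j, d * nrm u ≤ u j) →
      r * nrm u ≤ nrm (cK d₁ d₂ θ K u - cK d₁ d₂ θ L u) := by
  have h2 : 0 ≤ d₂ := h1.trans h12
  set S : Set (ι → ℝ) := {u | nrm u = 1} ∩ {u | ∃ j, d * nrm u ≤ u j} with hS
  have hclosed : IsClosed {u : ι → ℝ | ∃ j, d * nrm u ≤ u j} := by
    have : {u : ι → ℝ | ∃ j, d * nrm u ≤ u j} = ⋃ j, {u | d * nrm u ≤ u j} := by
      ext u; simp
    rw [this]
    exact isClosed_iUnion_of_finite fun j =>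
      isClosed_le (continuous_const.mul continuous_nrm) (continuous_apply j)
  have hcomp : IsCompact S := isCompact_sphere.inter_right hclosed
  have hcont : Continuous fun u : ι → ℝ => nrm (cK d₁ d₂ θ K u - cK d₁ d₂ θ L u) :=
    continuous_nrm.comp ((continuous_cK h1 h2 hθ.le K).sub (continuous_cK h1 h2 hθ.le L))
  obtain ⟨r, hr, hrS⟩ : ∃ r > 0, ∀ u ∈ S, r ≤ nrm (cK d₁ d₂ θ K u - cK d₁ d₂ θ L u) := by
    rcases S.eq_empty_or_nonempty with he | hne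
    · exact ⟨1, one_pos, fun u hu => by rw [he] at hu; exact hu.elim⟩
    · obtain ⟨u₀, hu₀, hmin⟩ := hcomp.exists_isMinOn hne hcont.continuousOn
      refine ⟨_, ?_, fun u hu => hmin hu⟩
      refine nrm_pos (sub_ne_zero.mpr (cK_ne h12 h2 hθ hKL ?_))
      obtain ⟨hu1, j, hj⟩ := hu₀
      refine ⟨j, ?_⟩
      have hu1' : nrm u₀ = 1 := hu1
      rw [hu1'] at hj ⊢
      linarith
  refine ⟨r, hr, fun u hu => ?_⟩
  rcases (nrm_nonneg u).eq_or_lt with h0 | h0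
  · rw [← h0, mul_zero]; exact nrm_nonneg _
  · set w : ι → ℝ := (nrm u)⁻¹ • u with hw
    have hi : 0 ≤ (nrm u)⁻¹ := inv_nonneg.mpr h0.le
    have hw1 : nrm w = 1 := by
      rw [hw, nrm_smul, abs_of_nonneg hi, inv_mul_cancel₀ h0.ne']
    have huw : u = nrm u • w := by
      rw [hw, smul_smul, mul_inv_cancel₀ h0.ne', one_smul]
    have hwS : w ∈ S := by
      refine ⟨hw1, ?_⟩
      obtain ⟨j, hj⟩ := hu
      refine ⟨j, ?_⟩
      rw [hw1]
      have : w j = (nrm u)⁻¹ * u j := rfl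
      rw [this]
      have h3 := mul_le_mul_of_nonneg_left hj hi
      calc d * 1 = (nrm u)⁻¹ * (d * nrm u) := by field_simp
        _ ≤ _ := h3
    have e : cK d₁ d₂ θ K u - cK d₁ d₂ θ L u =
        nrm u • (cK d₁ d₂ θ K w - cK d₁ d₂ θ L w) := by
      funext j
      conv_lhs => rw [huw]
      simp only [Pi.sub_apply, Pi.smul_apply, smul_eq_mul]
      rw [cK_smul d₁ d₂ θ K h0.le, cK_smul d₁ d₂ θ L h0.le]
      ring
    rw [e, nrm_smul, abs_of_pos h0, mul_comm r]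
    exact mul_le_mul_of_nonneg_left (hrS w hwS) h0.le

/-- **Quantitative separation** of a finite family of sheets. -/
theorem exists_sep {σ : Type*} [Finite σ] {K : σ → ι → ℕ} (hK : Function.Injective K)
    {d₁ d₂ θ d : ℝ} (h1 : 0 ≤ d₁) (h12 : d₁ ≤ d₂) (hθ : 0 < θ) (hd : d₂ < d) :
    ∃ r > 0, ∀ a b, a ≠ b → ∀ u : ι → ℝ, (∃ j, d * nrm u ≤ u j) →
      r * nrm u ≤ nrm (cK d₁ d₂ θ (K a) u - cK d₁ d₂ θ (K b) u) := by
  have h : ∀ p : σ × σ, ∃ r > 0, p.1 ≠ p.2 → ∀ u : ι → ℝ, (∃ j, d * nrm u ≤ u j) →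
      r * nrm u ≤ nrm (cK d₁ d₂ θ (K p.1) u - cK d₁ d₂ θ (K p.2) u) := by
    intro p
    by_cases hp : p.1 = p.2
    · exact ⟨1, one_pos, fun h => (h hp).elim⟩
    · obtain ⟨r, hr, h⟩ := exists_sep_pair (K := K p.1) (L := K p.2) h1 h12 hθ hd
        (fun h => hp (hK h))
      exact ⟨r, hr, fun _ => h⟩
  choose r hr hr' using h
  rcases isEmpty_or_nonempty σ with he | hne
  · exact ⟨1, one_pos, fun a => (he.false a).elim⟩
  · obtain ⟨p₀, hp₀⟩ := Finite.exists_min r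
    exact ⟨r p₀, hr p₀, fun a b hab u hu =>
      (mul_le_mul_of_nonneg_right (hp₀ (a, b)) (nrm_nonneg u)).trans (hr' (a, b) hab u hu)⟩

end Vale.Agent.P268.T.K372
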